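import Crest.Agent.R254.Stage

/-!
The compact set: a self-similar product of periodic movies at rapidly decreasing scales.
-/

set_option autoImplicit false
set_option linter.unusedSectionVars false

namespace Crest.Agent.R254

open scoped RealInnerProductSpace

variable {B : Type*} [NormedAddCommGroup B] [NormedSpace ℝ B]

theorem exists_scales (w σ : ℕ → ℝ) (hw : ∀ m, 0 < w m) (hσ : ∀ m, 0 < σ m) :
    ∃ X : ℕ → ℝ, (∀ m, 0 < X m) ∧ (∀ m, X (m + 1) * w (m + 1) ≤ X m * w m / 2) ∧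
      ∀ m, X (m + 1) * w (m + 1) ≤ X m * σ m / 400 := by
  let X : ℕ → ℝ := fun m =>
    Nat.rec 1 (fun m x => min (x * w m / 2) (x * σ m / 400) / w (m + 1)) m
  have hS : ∀ m, X (m + 1) = min (X m * w m / 2) (X m * σ m / 400) / w (m + 1) := fun m => rfl
  have hpos : ∀ m, 0 < X m := by
    intro m
    induction m with
    | zero => exact one_pos
    | succ m ih =>
      rw [hS]
      have := hw m
      have := hσ m
      have := hw (m + 1)
      positivity
  refine ⟨X, hpos, fun m => ?_, fun m => ?_⟩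
  · rw [hS, div_mul_cancel₀ _ (hw _).ne']; exact min_le_left _ _
  · rw [hS, div_mul_cancel₀ _ (hw _).ne']; exact min_le_right _ _

/-- All data of the construction. -/
structure Sys (B : Type*) [NormedAddCommGroup B] [NormedSpace ℝ B] where
  e0 : B
  φ : B →L[ℝ] ℝ
  U : ℕ → Set B
  ν : ℕ → ℝ
  σ : ℕ → ℝ
  L : ℕ → ℝ
  X : ℕ → ℝ
  N : ℕ → ℕ
  Mv : ℕ → B → Set ℝ
  he0 : ‖e0‖ = 1
  hφ : ∀ b, |φ b| ≤ ‖b‖
  φe0 : φ e0 = 1
  st : ∀ m, StageG (LinearMap.ker (φ : B →ₗ[ℝ] ℝ)) (U m) (ν m) (σ m) (L m) (Mv m)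
  X_pos : ∀ m, 0 < X m
  half : ∀ m, X (m + 1) * (ν (m + 1) + L (m + 1)) ≤ X m * (ν m + L m) / 2
  small : ∀ m, X (m + 1) * (ν (m + 1) + L (m + 1)) ≤ X m * σ m / 400
  hN : ∀ m, 1 ≤ N m * (X m * L m)
  kills : ∀ D d : ℕ, ∃ κ : ℝ, 0 < κ ∧ ∀ M, ∃ m, M ≤ m ∧ Kills (D + 1) d κ (L m) (Mv m)

namespace Sys

variable (S : Sys B)

/-- Size of stage `m`. -/
def a (m : ℕ) : ℝ := S.X m * (S.ν m + S.L m)

theorem a_pos (m : ℕ) : 0 < S.a m :=
  mul_pos (S.X_pos m) (add_pos (S.st m).ν_pos (S.st m).L_pos)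

theorem a_le (m k : ℕ) : S.a (k + m) ≤ S.a m * (1 / 2) ^ k := by
  induction k with
  | zero => simp
  | succ k ih =>
    have := S.half (k + m)
    rw [Nat.add_right_comm, pow_succ]
    unfold a at *
    linarith

theorem summable_a : Summable S.a :=
  Summable.of_nonneg_of_le (fun m => (S.a_pos m).le) (fun m => S.a_le 0 m)
    (summable_geometric_two.mul_left _)

theorem term_le {m : ℕ} {p : B} (hp : p ∈ S.U m) : ‖S.X m • p‖ ≤ S.a m := by
  rw [norm_smul, Real.norm_of_nonneg (S.X_pos m).le]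
  exact mul_le_mul_of_nonneg_left (by linarith [(S.st m).bd p hp, (S.st m).L_pos]) (S.X_pos m).le

/-- The parameter domain. -/
def Dom : Set (ℝ × (ℕ → B)) :=
  {x | (0 ≤ x.1 ∧ x.1 ≤ 1) ∧
    ∀ m, x.2 m = 0 ∨ x.1 / S.X m ∈ rep (S.Mv m) 0 (S.L m) (S.N m) (x.2 m)}

/-- The spatial part. -/
noncomputable def Z (y : ℕ → B) : B := ∑' m, S.X m • y m

/-- The parametrisation. -/
noncomputable def Φ (x : ℝ × (ℕ → B)) : B := x.1 • S.e0 + S.Z x.2

/-- The compact set. -/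
def K : Set B := S.Φ '' S.Dom

theorem mem_U {x : ℝ × (ℕ → B)} (hx : x ∈ S.Dom) (m : ℕ) : x.2 m ∈ S.U m := by
  rcases hx.2 m with h | ⟨k, -, h⟩
  · rw [h]; exact (S.st m).zero
  · exact ((S.st m).supp _ _ h).2.2

theorem isCompact_Dom : IsCompact S.Dom := by
  have h1 : IsCompact (Set.Icc (0 : ℝ) 1 ×ˢ Set.pi Set.univ S.U) :=
    isCompact_Icc.prod (isCompact_univ_pi fun m => (S.st m).fin.isCompact)
  refine h1.of_isClosed_subset ?_ fun x hx => ⟨hx.1, fun m _ => S.mem_U hx m⟩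
  have : S.Dom = (Prod.fst ⁻¹' Set.Icc (0 : ℝ) 1) ∩ ⋂ m, ({x : ℝ × (ℕ → B) | x.2 m = 0} ∪
      ⋃ p ∈ S.U m, ({x : ℝ × (ℕ → B) | x.2 m = p} ∩
        (fun x : ℝ × (ℕ → B) => x.1 / S.X m) ⁻¹' rep (S.Mv m) 0 (S.L m) (S.N m) p)) := by
    ext x
    simp only [Set.mem_inter_iff, Set.mem_preimage, Set.mem_Icc, Set.mem_iInter, Set.mem_union,
      Set.mem_iUnion, Set.mem_ofPred_eq]
    constructor
    · intro hx
      refine ⟨hx.1, fun m => ?_⟩
      rcases hx.2 m with h | h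
      · exact Or.inl h
      · exact Or.inr ⟨_, S.mem_U hx m, rfl, h⟩
    · rintro ⟨h1, h2⟩
      refine ⟨h1, fun m => ?_⟩
      rcases h2 m with h | ⟨p, -, rfl, h⟩
      · exact Or.inl h
      · exact Or.inr h
  rw [this]
  refine (isClosed_Icc.preimage continuous_fst).inter (isClosed_iInter fun m => ?_)
  refine (isClosed_eq (by fun_prop) continuous_const).union
    ((S.st m).fin.isClosed_biUnion fun p _ => ?_)
  exact (isClosed_eq (by fun_prop) continuous_const).inter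
    (((S.st m).closed _ p).preimage (by fun_prop))

variable [CompleteSpace B]

theorem summable_Z {y : ℕ → B} (hy : ∀ m, y m ∈ S.U m) : Summable fun m => S.X m • y m :=
  Summable.of_norm_bounded S.summable_a fun m => S.term_le (hy m)

theorem isCompact_K : IsCompact S.K := by
  refine S.isCompact_Dom.image_of_continuousOn (ContinuousOn.add (by fun_prop) ?_)
  exact continuousOn_tsum (fun m => by fun_prop) S.summable_a fun m x hx => S.term_le (S.mem_U hx m)

theorem φ_Φ {x : ℝ × (ℕ → B)} (hx : x ∈ S.Dom) : S.φ (S.Φ x) = x.1 := by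
  have h : ∀ m, S.φ (S.X m • x.2 m) = 0 := fun m => by
    have : S.φ (x.2 m) = 0 := (S.st m).ker _ (S.mem_U hx m)
    rw [map_smul, this, smul_zero]
  rw [Φ, map_add, map_smul, S.φe0, Z, S.φ.map_tsum (S.summable_Z (S.mem_U hx))]
  simp [h]

theorem Z_sub {y y' : ℕ → B} (hy : ∀ m, y m ∈ S.U m) (hy' : ∀ m, y' m ∈ S.U m) :
    S.Z y - S.Z y' = ∑' m, (S.X m • y m - S.X m • y' m) :=
  ((S.summable_Z hy).tsum_sub (S.summable_Z hy')).symm

theorem Z_est {y y' : ℕ → B} (hy : ∀ m, y m ∈ S.U m) (hy' : ∀ m, y' m ∈ S.U m) (m : ℕ)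
    (h : ∀ j < m, y j = y' j) :
    ‖S.Z y - S.Z y' - S.X m • (y m - y' m)‖ ≤ S.X m * S.σ m / 100 := by
  have hs := (S.summable_Z hy).sub (S.summable_Z hy')
  rw [S.Z_sub hy hy', ← hs.sum_add_tsum_nat_add (m + 1), Finset.sum_range_succ,
    Finset.sum_eq_zero (fun j hj => by rw [h j (Finset.mem_range.1 hj), sub_self]), zero_add,
    smul_sub, add_sub_cancel_left]
  have h1 := tsum_of_norm_bounded (f := fun i => S.X (i + (m + 1)) • y (i + (m + 1)) -
    S.X (i + (m + 1)) • y' (i + (m + 1))) (hasSum_geometric_two.mul_left (2 * S.a (m + 1)))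
    (fun i => by
      have := norm_sub_le (S.X (i + (m + 1)) • y (i + (m + 1)))
        (S.X (i + (m + 1)) • y' (i + (m + 1)))
      linarith [S.term_le (hy (i + (m + 1))), S.term_le (hy' (i + (m + 1))), S.a_le (m + 1) i])
  have h2 := S.small m
  unfold a at h1
  linarith

theorem Z_update {y : ℕ → B} (hy : ∀ m, y m ∈ S.U m) (m : ℕ) {p q : B} (hp : p ∈ S.U m)
    (hq : q ∈ S.U m) :
    S.Z (Function.update y m p) - S.Z (Function.update y m q) = S.X m • (p - q) := by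
  have hu : ∀ p ∈ S.U m, ∀ j, Function.update y m p j ∈ S.U j := by
    intro p hp j
    by_cases h : j = m
    · subst h; simpa using hp
    · simpa [h] using hy j
  rw [S.Z_sub (hu p hp) (hu q hq), tsum_eq_single m (fun j hj => by simp [hj])]
  simp [smul_sub]

theorem card_class {r : ℝ} (hr : 0 < r) (Q : Finset B) (hQ : ↑Q ⊆ S.K) (hs : Sep Q r)
    (hd : ∀ p ∈ Q, ∀ q ∈ Q, ‖p - q‖ ≤ 4 * r) (t0 : ℝ)
    (ht : ∀ p ∈ Q, t0 ≤ S.φ p ∧ S.φ p ≤ t0 + r / 4) : (Q.card : ℝ) ≤ Λ0 + 1 := by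
  classical
  by_cases h1 : Q.card ≤ 1
  · have : (Q.card : ℝ) ≤ 1 := by exact_mod_cast h1
    unfold Λ0; linarith
  obtain ⟨p1, hp1, q1, hq1, hne1⟩ := Finset.one_lt_card.1 (not_le.1 h1)
  have hex : ∀ p : B, ∃ x, p ∈ Q → x ∈ S.Dom ∧ S.Φ x = p := by
    intro p
    by_cases hp : p ∈ Q
    · obtain ⟨x, hx⟩ := hQ hp
      exact ⟨x, fun _ => hx⟩
    · exact ⟨(0, 0), fun h => absurd h hp⟩
  choose ξ hξ using hex
  have hφ : ∀ p ∈ Q, S.φ p = (ξ p).1 := fun p hp => by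
    rw [← S.φ_Φ (hξ p hp).1, (hξ p hp).2]
  have hU : ∀ p ∈ Q, ∀ m, (ξ p).2 m ∈ S.U m := fun p hp => S.mem_U (hξ p hp).1
  have hz : ∀ p ∈ Q, ∀ q ∈ Q, |‖p - q‖ - ‖S.Z (ξ p).2 - S.Z (ξ q).2‖| ≤ r / 4 := by
    intro p hp q hq
    refine (abs_norm_sub_norm_le _ _).trans ?_
    have e : p - q - (S.Z (ξ p).2 - S.Z (ξ q).2) = (S.φ p - S.φ q) • S.e0 := by
      rw [hφ p hp, hφ q hq]
      conv_lhs => rw [← (hξ p hp).2, ← (hξ q hq).2, (hξ p hp).2, (hξ q hq).2]
      have e1 := (hξ p hp).2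
      have e2 := (hξ q hq).2
      unfold Φ at e1 e2
      rw [sub_smul, eq_sub_of_add_eq e1, eq_sub_of_add_eq e2]
      abel
    rw [e, norm_smul, S.he0, mul_one, Real.norm_eq_abs, abs_le]
    constructor <;> linarith [(ht p hp).1, (ht p hp).2, (ht q hq).1, (ht q hq).2]
  have hP : ∃ m, ∃ p ∈ Q, ∃ q ∈ Q, (ξ p).2 m ≠ (ξ q).2 m := by
    by_contra hc
    push Not at hc
    have h2 : (ξ p1).2 = (ξ q1).2 := funext fun m => hc m p1 hp1 q1 hq1
    have h3 := abs_le.1 (hz p1 hp1 q1 hq1)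
    rw [h2, sub_self, norm_zero] at h3
    linarith [hs p1 hp1 q1 hq1 hne1, h3.2]
  set m := Nat.find hP with hm
  obtain ⟨p0, hp0, q0, hq0, hne0⟩ := Nat.find_spec hP
  rw [← hm] at hne0
  have hX := S.X_pos m
  have hest : ∀ p ∈ Q, ∀ q ∈ Q,
      |‖p - q‖ - S.X m * ‖(ξ p).2 m - (ξ q).2 m‖| ≤ r / 4 + S.X m * S.σ m / 100 := by
    intro p hp q hq
    have h2 := S.Z_est (hU p hp) (hU q hq) m (fun j hj => by
      by_contra hc
      exact Nat.find_min hP hj ⟨p, hp, q, hq, hc⟩)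
    have h3 := abs_le.1 ((abs_norm_sub_norm_le _ _).trans h2)
    rw [norm_smul, Real.norm_of_nonneg hX.le] at h3
    have h4 := abs_le.1 (hz p hp q hq)
    rw [abs_le]
    constructor <;> linarith [h3.1, h3.2, h4.1, h4.2]
  have hb : S.X m * S.σ m / 100 ≤ r / 20 := by
    have h2 := abs_le.1 (hest p0 hp0 q0 hq0)
    have h3 := mul_le_mul_of_nonneg_left ((S.st m).sep _ (hU p0 hp0 m) _ (hU q0 hq0 m) hne0) hX.le
    linarith [h2.1, hd p0 hp0 q0 hq0]
  have hlo : ∀ p ∈ Q, ∀ q ∈ Q, p ≠ q → 7 / 10 * r / S.X m < ‖(ξ p).2 m - (ξ q).2 m‖ := by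
    intro p hp q hq hne
    rw [div_lt_iff₀' hX]
    linarith [(abs_le.1 (hest p hp q hq)).2, hs p hp q hq hne]
  have hinj : Set.InjOn (fun p => (ξ p).2 m) Q := by
    intro p hp q hq h
    by_contra hne
    have h2 := hlo p hp q hq hne
    simp only at h
    rw [h, sub_self, norm_zero] at h2
    have : 0 < 7 / 10 * r / S.X m := by positivity
    linarith
  rw [← Finset.card_image_of_injOn hinj]
  refine (S.st m).good (S.N m) (t0 / S.X m) (7 / 10 * r / S.X m) (by positivity) _ ?_ ?_ ?_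
  · intro y hy
    obtain ⟨p, hp, rfl⟩ := Finset.mem_image.1 hy
    rcases (hξ p hp).1.2 m with h | h
    · exact Or.inl h
    · refine Or.inr ⟨_, h, ?_, ?_⟩
      · rw [← hφ p hp]; exact div_le_div_of_nonneg_right (ht p hp).1 hX.le
      · rw [← hφ p hp]
        have h2 := hlo p1 hp1 q1 hq1 hne1
        have h3 := norm_sub_le ((ξ p1).2 m) ((ξ q1).2 m)
        have h4 := (S.st m).bd _ (hU p1 hp1 m)
        have h5 := (S.st m).bd _ (hU q1 hq1 m)
        have h6 := div_le_div_of_nonneg_right (ht p hp).2 hX.le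
        rw [add_div] at h6
        have h7 : r / 4 / S.X m = 5 / 14 * (7 / 10 * r / S.X m) := by ring
        linarith [(S.st m).ν_pos]
  · intro y hy y' hy' hne
    obtain ⟨p, hp, rfl⟩ := Finset.mem_image.1 hy
    obtain ⟨q, hq, rfl⟩ := Finset.mem_image.1 hy'
    exact hlo p hp q hq fun h => hne (h ▸ rfl)
  · intro y hy y' hy'
    obtain ⟨p, hp, rfl⟩ := Finset.mem_image.1 hy
    obtain ⟨q, hq, rfl⟩ := Finset.mem_image.1 hy'
    rw [← mul_div_assoc, le_div_iff₀' hX]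
    linarith [(abs_le.1 (hest p hp q hq)).1, hd p hp q hq]

theorem card_le {r : ℝ} (hr : 0 < r) (Q : Finset B) (hQ : ↑Q ⊆ S.K) (hs : Sep Q r)
    (hd : ∀ p ∈ Q, ∀ q ∈ Q, ‖p - q‖ ≤ 4 * r) : Q.card ≤ 2000000001 * 17 := by
  classical
  rcases Q.eq_empty_or_nonempty with rfl | hne
  · simp
  obtain ⟨p0, hp0, hmin⟩ := Q.exists_min_image S.φ hne
  have h4 : 0 < r / 4 := by positivity
  have := Finset.card_le_mul_card_image_of_maps_to (s := Q) (t := Finset.range 17)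
    (f := fun p => ⌊(S.φ p - S.φ p0) / (r / 4)⌋₊) (fun p hp => by
      rw [Finset.mem_range, Nat.lt_succ_iff]
      apply Nat.floor_le_of_le
      rw [div_le_iff₀ h4, ← map_sub]
      have := (le_abs_self _).trans (S.hφ (p - p0))
      push_cast
      linarith [hd p hp p0 hp0]) 2000000001 (fun b _ => by
      have h := S.card_class hr (Q.filter fun p => ⌊(S.φ p - S.φ p0) / (r / 4)⌋₊ = b)
        (fun p hp => hQ (Finset.mem_filter.1 hp).1)
        (fun p hp q hq => hs p (Finset.mem_filter.1 hp).1 q (Finset.mem_filter.1 hq).1)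
        (fun p hp q hq => hd p (Finset.mem_filter.1 hp).1 q (Finset.mem_filter.1 hq).1)
        (S.φ p0 + b * (r / 4)) (fun p hp => by
          obtain ⟨hp, hb⟩ := Finset.mem_filter.1 hp
          have a1 : 0 ≤ (S.φ p - S.φ p0) / (r / 4) := div_nonneg (sub_nonneg.2 (hmin p hp)) h4.le
          have a2 := Nat.floor_le a1
          have a3 := (Nat.lt_floor_add_one ((S.φ p - S.φ p0) / (r / 4))).le
          rw [hb] at a2 a3
          rw [le_div_iff₀ h4] at a2
          rw [div_le_iff₀ h4] at a3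
          constructor <;> linarith)
      unfold Λ0 at h
      have h' : ((Q.filter fun p => ⌊(S.φ p - S.φ p0) / (r / 4)⌋₊ = b).card : ℝ) ≤
          (2000000001 : ℕ) := by push_cast; linarith
      exact_mod_cast h')
  simpa using this

theorem not_biLip (D d : ℕ) (F : B → EuclideanSpace ℝ (Fin d)) : ¬ BiLip (D + 1) F S.K := by
  classical
  intro hF
  obtain ⟨κ, hκ, hk⟩ := S.kills D d
  have hD : (0 : ℝ) < D + 1 := by positivity
  have hΦ : ∀ a b : ℝ, ∀ y, a ≤ b → ‖S.Φ (b, y) - S.Φ (a, y)‖ = b - a := by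
    intro a b y hab
    have : S.Φ (b, y) - S.Φ (a, y) = (b - a) • S.e0 := by simp [Φ, sub_smul]
    rw [this, norm_smul, S.he0, mul_one, Real.norm_of_nonneg (by linarith)]
  let Seg : ℝ → ℝ → (ℕ → B) → Prop := fun a b y =>
    a < b ∧ (∃ M, ∀ m, M ≤ m → y m = 0) ∧ ∀ s, a ≤ s → s ≤ b → (s, y) ∈ S.Dom
  let T : Set ℝ := {t | ∃ a b y, Seg a b y ∧ t = ‖F (S.Φ (b, y)) - F (S.Φ (a, y))‖ / (b - a)}
  have hTne : T.Nonempty :=
    ⟨_, 0, 1, 0, ⟨one_pos, ⟨0, fun _ _ => rfl⟩, fun s h1 h2 => ⟨⟨h1, h2⟩, fun _ => Or.inl rfl⟩⟩, rfl⟩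
  have hTb : ∀ t ∈ T, t ≤ D + 1 := by
    rintro _ ⟨a, b, y, ⟨hab, -, hs⟩, rfl⟩
    rw [div_le_iff₀ (by linarith), ← hΦ a b y hab.le]
    exact (hF _ ⟨_, hs b hab.le le_rfl, rfl⟩ _ ⟨_, hs a le_rfl hab.le, rfl⟩).2
  have hbdd : BddAbove T := ⟨_, hTb⟩
  set lam := sSup T with hlam
  have hl : lam ≤ D + 1 := csSup_le hTne hTb
  have hlip : ∀ a b y, Seg a b y → ‖F (S.Φ (b, y)) - F (S.Φ (a, y))‖ ≤ lam * (b - a) := by
    intro a b y h
    rw [← div_le_iff₀ (by linarith [h.1])]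
    exact le_csSup hbdd ⟨a, b, y, h, rfl⟩
  have hl0 : 0 ≤ lam := by
    obtain ⟨t, ht⟩ := hTne
    refine le_trans ?_ (le_csSup hbdd ht)
    obtain ⟨a, b, y, h, rfl⟩ := ht
    exact div_nonneg (norm_nonneg _) (by linarith [h.1])
  obtain ⟨_, ⟨a, b, y, ⟨hab, ⟨M, hM⟩, hs⟩, rfl⟩, ht⟩ :=
    exists_lt_of_lt_csSup hTne (show lam - κ / 2 < lam by linarith)
  have hba : 0 < b - a := by linarith
  rw [lt_div_iff₀ hba] at ht
  set Δ := F (S.Φ (b, y)) - F (S.Φ (a, y)) with hΔ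
  have hΔ0 : Δ ≠ 0 := by
    intro h
    have := (hF _ ⟨_, hs b hab.le le_rfl, rfl⟩ _ ⟨_, hs a le_rfl hab.le, rfl⟩).1
    rw [← hΔ, h, hΦ a b y hab.le, norm_zero, mul_zero] at this
    linarith
  set v := ‖Δ‖⁻¹ • Δ with hv
  have hv1 : ‖v‖ = 1 := norm_smul_inv_norm hΔ0
  have hΔv : ⟪Δ, v⟫ = ‖Δ‖ := by
    rw [hv, inner_smul_right, real_inner_self_eq_norm_sq]
    have := norm_ne_zero_iff.2 hΔ0
    field_simp
  obtain ⟨M', hM'⟩ := Filter.eventually_atTop.1
    (S.summable_a.tendsto_atTop_zero.eventually (gt_mem_nhds (show 0 < (b - a) / 4 by positivity)))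
  obtain ⟨m, hm, hkill⟩ := hk (max M M')
  have hX := S.X_pos m
  have hL := (S.st m).L_pos
  have hh : S.X m * S.L m ≤ (b - a) / 4 := by
    have h1 := hM' m ((le_max_right _ _).trans hm)
    have h2 := mul_pos hX (S.st m).ν_pos
    unfold Sys.a at h1
    linarith
  have hym : y m = 0 := hM m ((le_max_left _ _).trans hm)
  have hyU : ∀ j, y j ∈ S.U j := S.mem_U (hs a le_rfl hab.le)
  have hup0 : Function.update y m 0 = y := by rw [← hym, Function.update_eq_self]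
  let I : ℝ → B → Prop := fun s p => (S.X m * s, Function.update y m p) ∈ S.Dom
  let f : ℝ → B → EuclideanSpace ℝ (Fin d) := fun s p =>
    (S.X m)⁻¹ • F (S.Φ (S.X m * s, Function.update y m p))
  have hfn : ∀ s p t q, S.X m * ‖f s p - f t q‖ = ‖F (S.Φ (S.X m * s, Function.update y m p)) -
      F (S.Φ (S.X m * t, Function.update y m q))‖ := by
    intro s p t q
    simp only [f]
    rw [← smul_sub, norm_smul, Real.norm_of_nonneg (inv_nonneg.2 hX.le), ← mul_assoc,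
      mul_inv_cancel₀ hX.ne', one_mul]
  have hA : Adm (D + 1) I f lam := by
    constructor
    · intro s p hp q hq
      have hpU : p ∈ S.U m := by simpa using S.mem_U hp m
      have hqU : q ∈ S.U m := by simpa using S.mem_U hq m
      have h1 := hF _ ⟨_, hp, rfl⟩ _ ⟨_, hq, rfl⟩
      have h2 : ‖S.Φ (S.X m * s, Function.update y m p) - S.Φ (S.X m * s, Function.update y m q)‖ =
          S.X m * ‖p - q‖ := by
        simp only [Φ, add_sub_add_left_eq_sub]
        rw [S.Z_update hyU m hpU hqU, norm_smul, Real.norm_of_nonneg hX.le]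
      rw [h2, ← hfn] at h1
      constructor
      · apply le_of_mul_le_mul_left _ hX; linarith [h1.1]
      · apply le_of_mul_le_mul_left _ hX; linarith [h1.2]
    · intro p a' b' hab' hI
      rcases hab'.eq_or_lt with rfl | hlt
      · simp
      apply le_of_mul_le_mul_left _ hX
      rw [hfn]
      refine (hlip (S.X m * a') (S.X m * b') (Function.update y m p)
        ⟨mul_lt_mul_of_pos_left hlt hX, ⟨m + 1, fun j hj => ?_⟩, fun s h1 h2 => ?_⟩).trans_eq
        (by ring)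
      · rw [Function.update_of_ne (by omega)]
        exact hM j (by have := (le_max_left _ _).trans hm; omega)
      · have := hI (s / S.X m) (by rwa [le_div_iff₀' hX]) (by rwa [div_le_iff₀' hX])
        simp only [I] at this
        rwa [mul_div_cancel₀ _ hX.ne'] at this
  have hI0 : ∀ s, a / S.X m ≤ s → s ≤ b / S.X m → I s 0 := by
    intro s h1 h2
    simp only [I]
    rw [hup0]
    exact hs _ (by rwa [div_le_iff₀' hX] at h1) (by rwa [le_div_iff₀' hX] at h2)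
  have hdef : lam * (b / S.X m - a / S.X m) - κ / 2 * (b - a) / S.X m ≤
      ⟪f (b / S.X m) 0 - f (a / S.X m) 0, v⟫ := by
    simp only [f]
    rw [hup0, mul_div_cancel₀ _ hX.ne', mul_div_cancel₀ _ hX.ne', ← smul_sub, inner_smul_left,
      ← hΔ, hΔv]
    simp only [conj_trivial]
    rw [← sub_div, ← mul_div_assoc, ← sub_div, div_eq_inv_mul]
    exact mul_le_mul_of_nonneg_left (by linarith) (inv_nonneg.2 hX.le)
  have ha0 : 0 ≤ a := (hs a le_rfl hab.le).1.1
  have hb1 : b ≤ 1 := (hs b hab.le le_rfl).1.2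
  have hXL := mul_pos hX hL
  set k0 := ⌈a / (S.X m * S.L m)⌉₊ with hk0
  set n := ⌈(b - a) / 2 / (S.X m * S.L m)⌉₊ with hn
  have hk1 : a ≤ k0 * (S.X m * S.L m) := by rw [← div_le_iff₀ hXL]; exact Nat.le_ceil _
  have hk2 : (k0 - 1) * (S.X m * S.L m) ≤ a := by
    rw [← le_div_iff₀ hXL]
    linarith [Nat.ceil_lt_add_one (div_nonneg ha0 hXL.le)]
  have hn1 : (b - a) / 2 ≤ n * (S.X m * S.L m) := by rw [← div_le_iff₀ hXL]; exact Nat.le_ceil _
  have hn2 : (n - 1) * (S.X m * S.L m) ≤ (b - a) / 2 := by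
    rw [← le_div_iff₀ hXL]
    linarith [Nat.ceil_lt_add_one (div_nonneg (by positivity : 0 ≤ (b - a) / 2) hXL.le)]
  have hn0 : 0 < n := Nat.ceil_pos.2 (by positivity)
  have hn0' : (0 : ℝ) ≤ n := n.cast_nonneg
  have hlow : a / S.X m ≤ k0 * S.L m := by rw [div_le_iff₀' hX]; linarith
  have hupp : (k0 + n) * S.L m ≤ b / S.X m := by rw [le_div_iff₀' hX]; linarith
  obtain ⟨j, hj, hjd⟩ := exists_step_le
    (fun j : ℕ => lam * ((k0 + j) * S.L m) - ⟪f ((k0 + j) * S.L m) 0, v⟫) n hn0 (κ * S.L m) (by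
      have h1 := hA.sub_defect hv1 hlow (b' := (k0 + n) * S.L m) (by nlinarith) hupp hI0 hdef
      have h2 : κ / 2 * (b - a) / S.X m ≤ n * (κ * S.L m) := by
        rw [div_le_iff₀' hX]
        nlinarith
      simp only [inner_sub_left, Nat.cast_zero, add_zero] at h1 ⊢
      linarith)
  have hj' : (j : ℝ) + 1 ≤ n := by exact_mod_cast hj
  have hj0 : (0 : ℝ) ≤ j := j.cast_nonneg
  refine hkill _ lam v hv1 hl0 hl (hA.shift ((k0 + j) * S.L m) ?_) ?_
  · have hin : ∀ s, 0 ≤ s → s ≤ S.L m → I (s + (k0 + j) * S.L m) 0 := fun s h1 h2 =>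
      hI0 _ (by nlinarith) (by nlinarith)
    rintro s p (⟨h1, h2, h3⟩ | h1)
    · rw [Set.mem_singleton_iff] at h3
      subst h3
      exact hin s h1 h2
    · have h2 := (S.st m).supp p s h1
      have h3 := hin s h2.1 h2.2.1
      simp only [I] at h3 ⊢
      rw [hup0] at h3
      refine ⟨h3.1, fun i => ?_⟩
      by_cases hi : i = m
      · subst hi
        refine Or.inr ⟨k0 + j, ?_, ?_⟩
        · have h4 := S.hN i
          have h5 : (k0 + n) * (S.X i * S.L i) ≤ 1 := by linarith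
          have h6 : ((k0 : ℝ) + n) ≤ S.N i := le_of_mul_le_mul_right (h5.trans h4) hXL
          have h7 : k0 + n ≤ S.N i := by exact_mod_cast h6
          omega
        · simp only [Function.update_self]
          rw [mul_div_cancel_left₀ _ hX.ne']
          push_cast
          simpa using h1
      · simpa only [Function.update_of_ne hi] using h3.2 i
  · have e : S.L m + (k0 + j) * S.L m = (k0 + ((j + 1 : ℕ) : ℝ)) * S.L m := by push_cast; ring
    simp only [zero_add, e, inner_sub_left]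
    push_cast at hjd ⊢
    linarith

end Sys

theorem exists_sys (hB : ¬ FiniteDimensional ℝ B) : Nonempty (Sys B) := by
  have hnt : Nontrivial B := by
    by_contra h
    rw [not_nontrivial_iff_subsingleton] at h
    exact hB inferInstance
  obtain ⟨e0, he0⟩ := exists_norm_eq B zero_le_one
  obtain ⟨φ, hφ1, hφ2⟩ := exists_dual_vector ℝ e0 (by rw [he0]; exact one_ne_zero)
  have hW : ¬ FiniteDimensional ℝ (LinearMap.ker (φ : B →ₗ[ℝ] ℝ)) := by
    intro h
    apply hB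
    have : Module.Finite ℝ (B ⧸ LinearMap.ker (φ : B →ₗ[ℝ] ℝ)) :=
      Module.Finite.equiv (φ : B →ₗ[ℝ] ℝ).quotKerEquivRange.symm
    exact Module.Finite.of_submodule_quotient (LinearMap.ker (φ : B →ₗ[ℝ] ℝ))
  choose U ν σ L κ Mv hG hκ hK using fun D d : ℕ =>
    exists_stage _ hW ((D : ℝ) + 1) (by linarith [D.cast_nonneg (α := ℝ)]) d
  let t : ℕ → ℕ × ℕ := fun m => Nat.unpair (Nat.unpair m).1
  obtain ⟨X, hX, h1, h2⟩ := exists_scales (fun m => ν (t m).1 (t m).2 + L (t m).1 (t m).2)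
    (fun m => σ (t m).1 (t m).2) (fun m => add_pos (hG _ _).ν_pos (hG _ _).L_pos)
    (fun m => (hG _ _).σ_pos)
  refine ⟨⟨e0, φ, fun m => U (t m).1 (t m).2, fun m => ν (t m).1 (t m).2,
    fun m => σ (t m).1 (t m).2, fun m => L (t m).1 (t m).2, X,
    fun m => ⌈1 / (X m * L (t m).1 (t m).2)⌉₊, fun m => Mv (t m).1 (t m).2, he0, fun b => ?_,
    by simpa [he0] using hφ2, fun m => hG _ _, hX, h1, h2, fun m => ?_, fun D d => ?_⟩⟩
  · have := φ.le_opNorm b
    rwa [hφ1, one_mul] at this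
  · rw [← div_le_iff₀ (mul_pos (hX m) (hG _ _).L_pos)]
    exact Nat.le_ceil _
  · refine ⟨κ D d, hκ D d, fun M => ⟨Nat.pair (Nat.pair D d) M, Nat.right_le_pair _ _, ?_⟩⟩
    simpa only [t, Nat.unpair_pair] using hK D d

end Crest.Agent.R254
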