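import Crest.Agent.R254.Geom

/-!
The abstract online game (row 254): the adversary reveals finite configurations in a Hilbert space
`H`, the opponent places them in `E`.
-/

set_option autoImplicit false
set_option linter.unusedSectionVars false

namespace Crest.Agent.R254

variable {H : Type*} [NormedAddCommGroup H] {E : Type*} [NormedAddCommGroup E]

/-- Configurations with uniformly few quasi-equilateral points. -/
def Good (X : Set H) : Prop := G1 (Λ0 + 1) X

theorem Good.mono {X Y : Set H} (h : Good X) (hY : Y ⊆ X) : Good Y :=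
  fun r hr Q hQ => h r hr Q (hQ.trans hY)

/-- Two-sided Lipschitz bound on a set. -/
def BiLip (D : ℝ) (G : H → E) (S : Set H) : Prop :=
  ∀ p ∈ S, ∀ q ∈ S, ‖p - q‖ ≤ D * ‖G p - G q‖ ∧ ‖G p - G q‖ ≤ D * ‖p - q‖

theorem BiLip.mono {D : ℝ} {G : H → E} {S S' : Set H} (h : BiLip D G S) (hS : S' ⊆ S) :
    BiLip D G S' := fun p hp q hq => h p (hS hp) q (hS hq)

/-- `Win D S 𝓕`: at configuration `S` the adversary wins against every placement in `𝓕`. -/
inductive Win (D : ℝ) : Set H → Set (H → E) → Prop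
  | leaf {S : Set H} {𝓕 : Set (H → E)} : S.Finite → (0 : H) ∈ S → Good S →
      (∀ G ∈ 𝓕, ¬ BiLip D G S) → Win D S 𝓕
  | mono {S : Set H} {𝓕 𝓕' : Set (H → E)} : Win D S 𝓕' → 𝓕 ⊆ 𝓕' → Win D S 𝓕
  | union {S : Set H} {𝓕 𝓕' : Set (H → E)} : Win D S 𝓕 → Win D S 𝓕' → Win D S (𝓕 ∪ 𝓕')
  | ext {S S' : Set H} {𝓕 𝓕' : Set (H → E)} : (0 : H) ∈ S → S ⊆ S' → Win D S' 𝓕' →
      (∀ G ∈ 𝓕, ∀ G' : H → E, Set.EqOn G G' S → G' ∈ 𝓕') → Win D S 𝓕

theorem Win.zero_mem {D : ℝ} {S : Set H} {𝓕 : Set (H → E)} (h : Win D S 𝓕) : (0 : H) ∈ S := by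
  induction h <;> assumption

theorem Win.finite {D : ℝ} {S : Set H} {𝓕 : Set (H → E)} (h : Win D S 𝓕) : S.Finite := by
  induction h with
  | leaf h => exact h
  | mono _ _ ih => exact ih
  | union _ _ ih _ => exact ih
  | ext _ h _ _ ih => exact ih.subset h

end Crest.Agent.R254
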