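import Crest.Agent.R254.Step
import Crest.Agent.R254.Win

/-!
The adversary wins the online game against a finite-dimensional target.
-/

set_option autoImplicit false
set_option linter.unusedSectionVars false

namespace Crest.Agent.R254

open scoped RealInnerProductSpace

variable {H : Type*} [NormedAddCommGroup H] [InnerProductSpace ℝ H]
  {E : Type*} [NormedAddCommGroup E]

/-- Fresh orthogonal directions exist. -/
def Fresh (H : Type*) [NormedAddCommGroup H] [InnerProductSpace ℝ H] : Prop :=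
  ∀ S : Set H, S.Finite → ∃ u : H, ‖u‖ = 1 ∧ ∀ s ∈ S, ⟪u, s⟫ = 0

/-- Families of placements determined by their values on `S`. -/
def Det (S : Set H) (𝓕 : Set (H → E)) : Prop := ∀ G ∈ 𝓕, ∀ G' : H → E, Set.EqOn G G' S → G' ∈ 𝓕

theorem Det.mono {S S' : Set H} {𝓕 : Set (H → E)} (h : Det S 𝓕) (hS : S ⊆ S') : Det S' 𝓕 :=
  fun G hG G' hG' => h G hG G' (hG'.mono hS)

theorem Det.inter {S : Set H} {𝓕 : Set (H → E)} (h : Det S 𝓕) {p q : H} (hp : p ∈ S) (hq : q ∈ S)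
    (P : E → E → Prop) : Det S (𝓕 ∩ {F | P (F p) (F q)}) := by
  intro G hG G' hG'
  refine ⟨h G hG.1 G' hG', ?_⟩
  have := hG.2
  simp only [Set.mem_ofPred_eq] at this ⊢
  rwa [← hG' hp, ← hG' hq]

theorem Win.ext' {D : ℝ} {S S' : Set H} {𝓕 : Set (H → E)} (h0 : (0 : H) ∈ S) (hS : S ⊆ S')
    (h : Win D S' 𝓕) (hd : Det S 𝓕) : Win D S 𝓕 := Win.ext h0 hS h hd

theorem Win.cover {D : ℝ} {S : Set H} {𝓕 𝓕1 𝓕2 : Set (H → E)} (h1 : Win D S 𝓕1)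
    (h2 : Win D S 𝓕2) (h : ∀ F ∈ 𝓕, F ∈ 𝓕1 ∨ F ∈ 𝓕2) : Win D S 𝓕 :=
  (h1.union h2).mono h

/-- A coordinate with index in `[k, d)` separates `x` and `x'`. -/
def Big (φ : ℕ → E → ℝ) (D' : ℝ) (d k : ℕ) (x x' : H) : Set (H → E) :=
  {F | ∃ j, k ≤ j ∧ j < d ∧ ‖x - x'‖ ≤ D' * |φ j (F x) - φ j (F x')|}

/-- The level-`k` claim. -/
def Claim (H : Type*) [NormedAddCommGroup H] [InnerProductSpace ℝ H] (φ : ℕ → E → ℝ) (D D' : ℝ)
    (d k : ℕ) (c : ℝ) : Prop :=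
  ∀ (S : Set H) (M : H) (ρ : ℝ) (𝓕 : Set (H → E)), S.Finite → (0 : H) ∈ S → 0 < ρ → Det S 𝓕 →
    (∀ X x, Cl S M ρ c X x → Good (S ∪ X)) →
    (∀ X x x', Cl S M ρ c X x → Cl S M ρ c X x' → x ≠ x' →
      Win D (S ∪ X) (𝓕 ∩ Big φ D' d k x x')) →
    Win D S 𝓕

theorem claim_zero (hH : Fresh H) {φ : ℕ → E → ℝ} {D K : ℝ} (hD : 0 ≤ D) {d : ℕ}
    (hφ : ∀ a b : E, a ≠ b → ∃ j < d, ‖a - b‖ ≤ K * |φ j a - φ j b|) :
    Claim H φ D (D * K) d 0 1 := by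
  intro S M ρ 𝓕 hS h0 hρ hd Ha Hb
  obtain ⟨u, hu, huS⟩ := hH S hS
  have c1 := cl_pair (M := M) hρ hu huS (Or.inl rfl)
  have c2 := cl_pair (M := M) hρ hu huS (Or.inr rfl)
  have hne : M ≠ M + ρ • u := by
    intro h
    have h1 : ρ • u = 0 := by simpa using h
    rcases smul_eq_zero.1 h1 with h2 | h2
    · exact hρ.ne' h2
    · rw [h2, norm_zero] at hu; exact zero_ne_one hu
  refine Win.ext' (S' := S ∪ {M, M + ρ • u}) h0 Set.subset_union_left ?_ hd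
  refine Win.cover (Hb _ _ _ c1 c2 hne) (Win.leaf (𝓕 := {F | ¬ BiLip D F (S ∪ {M, M + ρ • u})})
    (hS.union c1.fin) (Or.inl h0) (Ha _ _ c1) (fun G hG => hG)) ?_
  intro F hF
  by_cases hb : BiLip D F (S ∪ {M, M + ρ • u})
  · left
    have h1 := (hb M (Or.inr c1.mem) _ (Or.inr c2.mem)).1
    have h2 : F M ≠ F (M + ρ • u) := by
      intro h
      rw [h, sub_self, norm_zero, mul_zero] at h1
      exact hne (sub_eq_zero.1 (norm_le_zero_iff.1 h1))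
    obtain ⟨j, hj, h3⟩ := hφ _ _ h2
    refine ⟨hF, j, Nat.zero_le _, hj, h1.trans ?_⟩
    rw [mul_assoc]
    exact mul_le_mul_of_nonneg_left h3 hD
  · exact Or.inr hb

theorem Edge.exists_pl (hH : Fresh H) {S : Set H} (hS : S.Finite) {A B u : H} {ℓ : ℝ}
    (e : Edge S A B u ℓ) {γ c : ℝ} (hγ0 : 0 < γ) (hγ : γ ≤ 1 / 2048) (hc : c ≤ γ) :
    ∃ Z z, Pl S A B u c Z z := by
  obtain ⟨u', hu, huS⟩ := hH S hS
  exact ⟨_, _, e.base hγ (by rwa [one_mul]) (by linarith)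
    (cl_pair (M := mid A B) (mul_pos hγ0 e.pos) hu huS (Or.inl rfl))⟩

/-- The loop statement with `n` events left, for the potential `φ k`. -/
def Loop (H : Type*) [NormedAddCommGroup H] [InnerProductSpace ℝ H] (φ : ℕ → E → ℝ) (D D' : ℝ)
    (d k : ℕ) (γ c g : ℝ) (n : ℕ) : Prop :=
  ∀ (S : Set H) (A B u : H) (ℓ ε L : ℝ) (𝓕 : Set (H → E)), S.Finite → (0 : H) ∈ S →
    Edge S A B u ℓ → ‖B - A‖ ^ 2 ≤ (2 - 64 * γ ^ 2 * n) * ℓ ^ 2 → (ε = 1 ∨ ε = -1) →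
    2 * D ≤ L + n * g → Det S 𝓕 → (∀ F ∈ 𝓕, L * ℓ ≤ ε * (φ k (F B) - φ k (F A))) →
    (∀ Z z, Pl S A B u c Z z → Good (S ∪ Z)) →
    (∀ Z z z', Pl S A B u c Z z → Pl S A B u c Z z' → z ≠ z' →
      Win D (S ∪ Z) (𝓕 ∩ Big φ D' d (k + 1) z z')) →
    Win D S 𝓕

theorem loop_zero (hH : Fresh H) {φ : ℕ → E → ℝ} {D D' : ℝ} (hD : 0 < D) {d k : ℕ}
    (hφ : ∀ a b : E, |φ k a - φ k b| ≤ ‖a - b‖) {γ c g : ℝ} (hγ0 : 0 < γ) (hγ : γ ≤ 1 / 2048)
    (hc : c ≤ γ) : Loop H φ D D' d k γ c g 0 := by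
  intro S A B u ℓ ε L 𝓕 hS h0 e _ hε hL _ hF Ha _
  obtain ⟨Z, z, hP⟩ := e.exists_pl hH hS hγ0 hγ hc
  refine Win.leaf hS h0 ((Ha Z z hP).mono Set.subset_union_left) fun G hG hb => ?_
  have h1 := (hb B e.hB A e.hA).2
  have h2 := abs_le.1 (hφ (G B) (G A))
  have h3 := hF G hG
  have h4 := mul_le_mul_of_nonneg_left e.len hD.le
  have h5 := mul_pos hD e.pos
  simp only [Nat.cast_zero, zero_mul, add_zero] at hL
  have h6 := mul_le_mul_of_nonneg_right hL e.pos.le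
  rcases hε with rfl | rfl <;> nlinarith [h2.1, h2.2]

theorem Edge.sub {S S' : Set H} {A B u : H} {ℓ : ℝ} (e : Edge S A B u ℓ) (hS : S ⊆ S')
    {α β : H} (hα : α ∈ S') (hβ : β ∈ S') {ℓ' τ : ℝ} (hℓ : ⟪β, u⟫ - ⟪α, u⟫ = ℓ') (hpos : 0 < ℓ')
    (hτ : 0 ≤ τ) (hlen : ‖β - α‖ ^ 2 ≤ (2 - τ) * ℓ' ^ 2) : Edge S' α β u ℓ' where
  hu := e.hu
  hA := hα
  hB := hβ
  huS ξ hξ := e.huS ξ fun s hs => hξ s (hS hs)
  hℓ := hℓ
  pos := hpos
  len := by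
    apply abs_le_of_sq_le_sq' _ (by positivity) |>.2
    nlinarith [sq_nonneg ℓ', mul_nonneg hτ (sq_nonneg ℓ')]

/-- The near-first search along the ray from `x` towards `A`. -/
theorem ray_win {φ : ℕ → E → ℝ} {D D' : ℝ} {d k : ℕ} {γ c c0 g m : ℝ} {n J : ℕ}
    (hγ0 : 0 < γ) (hγ : γ ≤ 1 / 2048) (hc : 0 ≤ c) (hm0 : 0 < m) (hmJ : m * 2 ^ J = 1 / 4)
    (hm : 640 * m ≤ c0 * γ) (ih : Loop H φ D D' d k γ c g n)
    {S : Set H} {A B u : H} {ℓ ε L : ℝ} {𝓕 : Set (H → E)} (hS : S.Finite) (h0 : (0 : H) ∈ S)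
    (e : Edge S A B u ℓ) (hlen : ‖B - A‖ ^ 2 ≤ (2 - 64 * γ ^ 2 * ((n + 1 : ℕ) : ℝ)) * ℓ ^ 2)
    (hε : ε = 1 ∨ ε = -1) (hL : 2 * D ≤ L + n * g) {X : Set H} {x : H}
    (hX : Cl S (mid A B) (γ * ℓ) c0 X x) (hd : Det (S ∪ X) 𝓕)
    (hF : ∀ F ∈ 𝓕, L * (ℓ / 2) ≤ ε * (φ k (F x) - φ k (F A)))
    (Ha : ∀ Z z, Pl S A B u (c * m) Z z → Good (S ∪ Z))
    (Hb : ∀ Z z z', Pl S A B u (c * m) Z z → Pl S A B u (c * m) Z z' → z ≠ z' →
      Win D (S ∪ Z) (𝓕 ∩ Big φ D' d (k + 1) z z')) :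
    Win D (S ∪ X) 𝓕 := by
  have hpos := e.pos
  set w := dir A B ℓ with hw
  have hwt : ⟪w, u⟫ = 1 := e.dir_time
  have hxt : ⟪x, u⟫ = ⟪A, u⟫ + ℓ / 2 := e.time_cl hX hX.mem
  have hrt : ∀ s : ℝ, ⟪x - s • w, u⟫ = ⟪A, u⟫ + ℓ / 2 - s := by
    intro s; rw [inner_sub_left, inner_smul_left, hwt, hxt]; simp
  have hγ2 : 0 ≤ 64 * γ ^ 2 := by positivity
  have hτ : 0 ≤ 64 * γ ^ 2 * n := by positivity
  have hwn : ‖w‖ ^ 2 ≤ 2 - 64 * γ ^ 2 * n - 64 * γ ^ 2 := by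
    have h1 : ‖B - A‖ ^ 2 = ‖w‖ ^ 2 * ℓ ^ 2 := by
      rw [← e.smul_dir, norm_smul, Real.norm_of_nonneg hpos.le]; ring
    rw [h1] at hlen
    have := le_of_mul_le_mul_right hlen (by positivity)
    push_cast at this
    linarith
  -- the ray
  obtain ⟨a, ha0, haS⟩ : ∃ a : ℕ → ℝ, a 0 = 0 ∧ ∀ j, a (j + 1) = m * 2 ^ j * ℓ :=
    ⟨fun j => Nat.casesOn j 0 (fun i => m * 2 ^ i * ℓ), rfl, fun j => rfl⟩
  have hml : 0 < m * ℓ := mul_pos hm0 hpos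
  have hgap : ∀ j, m * ℓ ≤ a (j + 1) - a j := by
    intro j
    cases j with
    | zero => rw [ha0, haS]; simp
    | succ j =>
      rw [haS, haS, pow_succ]
      have : (1 : ℝ) ≤ 2 ^ j := one_le_pow₀ (by norm_num)
      nlinarith
  have hmono : Monotone a := monotone_nat_of_le_succ fun j => by linarith [hgap j]
  have hnn : ∀ j, 0 ≤ a j := fun j => ha0 ▸ hmono (Nat.zero_le j)
  have haJ : a (J + 1) = ℓ / 4 := by rw [haS, hmJ]; ring
  have hdbl : ∀ j, a (j + 1) ≤ 2 * a j ∨ 640 * a (j + 1) ≤ c0 * (γ * ℓ) := by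
    intro j
    cases j with
    | zero => right; rw [haS]; nlinarith
    | succ j => left; rw [haS, haS, pow_succ]; linarith
  let Ry : ℕ → Set H := fun j => (fun i => x - a i • w) '' Set.Iic j
  have hRf : ∀ j, (Ry j).Finite := fun j => (Set.finite_Iic j).image _
  have hRm : ∀ i j, i ≤ j → x - a i • w ∈ S ∪ X ∪ Ry j := fun i j h => Or.inr ⟨i, h, rfl⟩
  have hfin : ∀ j, (S ∪ X ∪ Ry j).Finite := fun j => (hS.union hX.fin).union (hRf j)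
  have h0' : ∀ j, (0 : H) ∈ S ∪ X ∪ Ry j := fun j => Or.inl (Or.inl h0)
  have hsub : ∀ j, S ⊆ S ∪ X ∪ Ry j := fun j p hp => Or.inl (Or.inl hp)
  have hdj : ∀ j, Det (S ∪ X ∪ Ry j) 𝓕 := fun j => hd.mono Set.subset_union_left
  -- playing on a piece
  have piece : ∀ (j : ℕ) (α : H) (a' b' ℓ' : ℝ), 0 ≤ a' → α ∈ S ∪ X ∪ Ry j →
      x - a' • w ∈ S ∪ X ∪ Ry j →
      ((α = x - b' • w ∧ a' < b' ∧ b' ≤ ℓ / 4 ∧ (b' ≤ 2 * a' ∨ 640 * b' ≤ c0 * (γ * ℓ))) ∨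
        (α = A ∧ a' = ℓ / 4 ∧ b' = a')) →
      (∀ i ≤ j, a i ≤ a' ∨ a i = b') → ⟪x - a' • w, u⟫ - ⟪α, u⟫ = ℓ' → m * ℓ ≤ ℓ' →
      ‖x - a' • w - α‖ ^ 2 ≤ (2 - 64 * γ ^ 2 * n) * ℓ' ^ 2 →
      Win D (S ∪ X ∪ Ry j) (𝓕 ∩ {F | L * ℓ' ≤ ε * (φ k (F (x - a' • w)) - φ k (F α))}) := by
    intro j α a' b' ℓ' ha' hα hβ hcase hR hℓ' hml' hlen'
    have hstep : ∀ Z z, Pl (S ∪ X ∪ Ry j) α (x - a' • w) u c Z z →
        Pl S A B u (c * m) (X ∪ Ry j ∪ Z) z := fun Z z hP =>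
      e.step hγ0 hγ hX (hRf j) ha' rfl hcase (by
        rintro y ⟨i, hi, rfl⟩
        exact ⟨a i, rfl, hnn i, hR i hi⟩) hc (by rwa [hℓ']) hP
    have hset : ∀ Z : Set H, S ∪ X ∪ Ry j ∪ Z = S ∪ (X ∪ Ry j ∪ Z) := by
      intro Z; simp only [Set.union_assoc]
    refine ih _ α (x - a' • w) u ℓ' ε L _ (hfin j) (h0' j)
      (e.sub (hsub j) hα hβ hℓ' (by linarith) hτ hlen') hlen' hε hL
      ((hdj j).inter hβ hα (fun p q => L * ℓ' ≤ ε * (φ k p - φ k q))) (fun F hF => hF.2) ?_ ?_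
    · intro Z z hP
      rw [hset]; exact Ha _ _ (hstep Z z hP)
    · intro Z z z' hP hP' hne
      rw [hset]
      exact (Hb _ _ _ (hstep Z z hP) (hstep Z z' hP') hne).mono fun F hF => ⟨hF.1.1, hF.2⟩
  have T : ∀ i j, i + j = J + 1 → Win D (S ∪ X ∪ Ry j)
      (𝓕 ∩ {F | ε * (φ k (F x) - φ k (F (x - a j • w))) ≤ L * a j}) := by
    intro i
    induction i with
    | zero =>
      intro j hj
      rw [zero_add] at hj
      subst hj
      refine (piece (J + 1) A (a (J + 1)) (a (J + 1)) (ℓ / 4) (hnn _) (hsub _ e.hA)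
        (hRm _ _ le_rfl) (Or.inr ⟨rfl, haJ, rfl⟩) (fun i hi => Or.inl (hmono hi)) ?_ ?_ ?_).mono ?_
      · rw [hrt, haJ]; ring
      · have := hgap J
        linarith [hnn J]
      · have e1 : x - a (J + 1) • w - A = (x - mid A B) + (ℓ / 4) • w := by
          rw [haJ, e.mid_eq, ← hw]; module
        have e2 : ⟪x - mid A B, w⟫ = 0 := e.dir_orth (hX.orth x hX.mem)
        rw [e1, norm_add_sq_real, inner_smul_right, e2, norm_smul,
          Real.norm_of_nonneg (by positivity)]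
        have e3 : ‖x - mid A B‖ ^ 2 ≤ (2 * (γ * ℓ)) ^ 2 :=
          pow_le_pow_left₀ (norm_nonneg _) (hX.bd x hX.mem) 2
        have e4 := mul_le_mul_of_nonneg_left hwn (sq_nonneg (ℓ / 4))
        nlinarith
      · intro F hF'
        refine ⟨hF'.1, ?_⟩
        have h1 := hF F hF'.1
        have h2 := hF'.2
        simp only [Set.mem_ofPred_eq] at h2 ⊢
        rw [haJ] at h2 ⊢
        linarith
    | succ i ih' =>
      intro j hj
      have hxj : x ∈ S ∪ X ∪ Ry j := Or.inl (Or.inr hX.mem)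
      refine Win.ext' (S' := S ∪ X ∪ Ry (j + 1)) (h0' j) ?_ ?_
        ((hdj j).inter hxj (hRm _ _ le_rfl) (fun p q => ε * (φ k p - φ k q) ≤ L * a j))
      · exact Set.union_subset_union_right _ (Set.image_mono (Set.Iic_subset_Iic.2 (Nat.le_succ j)))
      refine Win.cover (ih' (j + 1) (by omega))
        (piece (j + 1) (x - a (j + 1) • w) (a j) (a (j + 1)) (a (j + 1) - a j) (hnn _)
          (hRm _ _ le_rfl) (hRm _ _ (Nat.le_succ j))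
          (Or.inl ⟨rfl, by linarith [hgap j], haJ ▸ hmono (show j + 1 ≤ J + 1 by omega), hdbl j⟩) ?_ ?_ (hgap j) ?_) ?_
      · intro i hi
        rcases Nat.lt_or_ge j i with h | h
        · right; congr 1; omega
        · left; exact hmono h
      · rw [hrt, hrt]; ring
      · have e1 : x - a j • w - (x - a (j + 1) • w) = (a (j + 1) - a j) • w := by module
        rw [e1, norm_smul, mul_pow, Real.norm_eq_abs, sq_abs]
        have e4 := mul_le_mul_of_nonneg_left hwn (sq_nonneg (a (j + 1) - a j))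
        nlinarith [mul_nonneg hγ2 (sq_nonneg (a (j + 1) - a j))]
      · intro F hF'
        have h2 := hF'.2
        simp only [Set.mem_ofPred_eq] at h2
        by_cases h3 : ε * (φ k (F x) - φ k (F (x - a (j + 1) • w))) ≤ L * a (j + 1)
        · exact Or.inl ⟨hF'.1, h3⟩
        · refine Or.inr ⟨hF'.1, ?_⟩
          simp only [Set.mem_ofPred_eq]
          linarith
  refine Win.ext' (S' := S ∪ X ∪ Ry 0) (Or.inl h0) Set.subset_union_left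
    ((T (J + 1) 0 rfl).mono fun F hF => ⟨hF, ?_⟩) hd
  simp [ha0]

theorem loop_succ {φ : ℕ → E → ℝ} {D D' : ℝ} (hD' : 0 < D') {d k : ℕ} {γ c c0 m : ℝ} {n J : ℕ}
    (hγ0 : 0 < γ) (hγ : γ ≤ 1 / 2048) (hc : 0 ≤ c) (hc0 : c0 ≤ 1) (hcm : c * m ≤ c0 * γ)
    (hm0 : 0 < m) (hmJ : m * 2 ^ J = 1 / 4) (hm : 640 * m ≤ c0 * γ)
    (hk : Claim H φ D D' d k c0) (ih : Loop H φ D D' d k γ c (c0 * γ / D') n) :
    Loop H φ D D' d k γ (c * m) (c0 * γ / D') (n + 1) := by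
  intro S A B u ℓ ε L 𝓕 hS h0 e hlen hε hL hd hF Ha Hb
  have hpos := e.pos
  have hc2 : c * m ≤ 1 / 2 := by nlinarith
  have hL' : 2 * D ≤ (L + c0 * γ / D') + n * (c0 * γ / D') := by push_cast at hL; linarith
  refine hk S (mid A B) (γ * ℓ) 𝓕 hS h0 (mul_pos hγ0 hpos) hd
    (fun X x hX => Ha _ _ (e.base hγ hcm hc2 hX)) fun X x x' hX hX' hne => ?_
  have hdX : Det (S ∪ X) 𝓕 := hd.mono Set.subset_union_left
  have W1 : ∀ y, Cl S (mid A B) (γ * ℓ) c0 X y → Win D (S ∪ X)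
      (𝓕 ∩ {F | (L + c0 * γ / D') * (ℓ / 2) ≤ ε * (φ k (F y) - φ k (F A))}) := fun y hy =>
    ray_win hγ0 hγ hc hm0 hmJ hm ih hS h0 e hlen hε hL' hy
      (hdX.inter (Or.inr hy.mem) (Or.inl e.hA)
        (fun p q => (L + c0 * γ / D') * (ℓ / 2) ≤ ε * (φ k p - φ k q))) (fun F hF => hF.2) Ha
      (fun Z z z' h1 h2 h3 => (Hb Z z z' h1 h2 h3).mono fun F hF => ⟨hF.1.1, hF.2⟩)
  have W2 : ∀ y, Cl S (mid A B) (γ * ℓ) c0 X y → Win D (S ∪ X)
      (𝓕 ∩ {F | (L + c0 * γ / D') * (ℓ / 2) ≤ -ε * (φ k (F y) - φ k (F B))}) := fun y hy =>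
    ray_win hγ0 hγ hc hm0 hmJ hm ih hS h0 e.swap (by rwa [norm_sub_rev])
      (by rcases hε with rfl | rfl <;> simp) hL' (by rwa [mid_comm])
      (hdX.inter (Or.inr hy.mem) (Or.inl e.hB)
        (fun p q => (L + c0 * γ / D') * (ℓ / 2) ≤ -ε * (φ k p - φ k q))) (fun F hF => hF.2)
      (fun Z z h1 => Ha Z z (by simpa using h1.swap))
      (fun Z z z' h1 h2 h3 => (Hb Z z z' (by simpa using h1.swap) (by simpa using h2.swap) h3).mono
        fun F hF => ⟨hF.1.1, hF.2⟩)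
  refine ((((Hb X x x' (e.base hγ hcm hc2 hX) (e.base hγ hcm hc2 hX') hne).union
    (W1 x hX)).union (W1 x' hX')).union ((W2 x hX).union (W2 x' hX'))).mono ?_
  rintro F ⟨hF1, j, hj1, hj2, hj3⟩
  rcases Nat.lt_or_ge k j with hkj | hkj
  · exact Or.inl (Or.inl (Or.inl ⟨hF1, j, hkj, hj2, hj3⟩))
  obtain rfl : j = k := le_antisymm hkj hj1
  have h1 := hX'.iso x hX.mem hne
  have h2 : c0 * γ / D' * ℓ ≤ |φ j (F x) - φ j (F x')| := by
    rw [div_mul_eq_mul_div, div_le_iff₀ hD']; linarith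
  have h3 := hF F hF1
  have h4 : c0 * γ / D' * ℓ ≤ ε * (φ j (F x) - φ j (F x')) ∨
      c0 * γ / D' * ℓ ≤ ε * (φ j (F x') - φ j (F x)) := by
    rcases le_abs.1 h2 with h | h <;> rcases hε with rfl | rfl
    · left; linarith
    · right; linarith
    · right; linarith
    · left; linarith
  rcases h4 with h4 | h4
  · by_cases h5 : (L + c0 * γ / D') * (ℓ / 2) ≤ ε * (φ j (F x) - φ j (F A))
    · exact Or.inl (Or.inl (Or.inr ⟨hF1, h5⟩))
    · refine Or.inr (Or.inr ⟨hF1, ?_⟩)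
      simp only [Set.mem_ofPred_eq]
      linarith
  · by_cases h5 : (L + c0 * γ / D') * (ℓ / 2) ≤ ε * (φ j (F x') - φ j (F A))
    · exact Or.inl (Or.inr ⟨hF1, h5⟩)
    · refine Or.inr (Or.inl ⟨hF1, ?_⟩)
      simp only [Set.mem_ofPred_eq]
      linarith

theorem claim_succ (hH : Fresh H) {φ : ℕ → E → ℝ} {D D' : ℝ} (hD : 0 < D) (hD' : 0 < D')
    {d k : ℕ} (hφ : ∀ a b : E, |φ k a - φ k b| ≤ ‖a - b‖) {c0 : ℝ} (hc00 : 0 < c0) (hc0 : c0 ≤ 1)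
    (hk : Claim H φ D D' d k c0) : ∃ c : ℝ, 0 < c ∧ c ≤ 1 ∧ Claim H φ D D' d (k + 1) c := by
  obtain ⟨γ, hγ0, hγ, hγ1⟩ : ∃ γ : ℝ, 0 < γ ∧ γ ≤ 1 / 2048 ∧ γ ≤ c0 / (256 * D * D') :=
    ⟨min (1 / 2048) (c0 / (256 * D * D')), by positivity, min_le_left _ _, min_le_right _ _⟩
  have hg : 0 < c0 * γ / D' := by positivity
  set N := ⌈2 * D / (c0 * γ / D')⌉₊ with hN
  have hN1 : 2 * D ≤ N * (c0 * γ / D') := by
    rw [← div_le_iff₀ hg]; exact Nat.le_ceil _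
  have hN2 : 64 * γ ^ 2 * N ≤ 1 := by
    have h1 : (N : ℝ) ≤ 2 * D / (c0 * γ / D') + 1 := (Nat.ceil_lt_add_one (by positivity)).le
    have h2 : 64 * γ ^ 2 * (2 * D / (c0 * γ / D')) = γ * (256 * D * D') / c0 / 2 := by
      field_simp; ring
    have h3 : γ * (256 * D * D') / c0 ≤ 1 := by
      rw [div_le_one hc00, ← le_div_iff₀ (by positivity)]; exact hγ1
    have h4 := mul_le_mul_of_nonneg_left h1 (by positivity : 0 ≤ 64 * γ ^ 2)
    nlinarith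
  obtain ⟨J, hJ⟩ := pow_unbounded_of_one_lt (160 / (c0 * γ)) (one_lt_two (α := ℝ))
  set m : ℝ := 1 / 4 / 2 ^ J with hm
  have hm0 : 0 < m := by positivity
  have hmJ : m * 2 ^ J = 1 / 4 := by rw [hm]; field_simp
  have hm1 : 640 * m ≤ c0 * γ := by
    rw [div_lt_iff₀ (by positivity)] at hJ
    have : 640 * m * 2 ^ J ≤ c0 * γ * 2 ^ J := by rw [mul_assoc, hmJ]; linarith
    exact le_of_mul_le_mul_right this (by positivity)
  have hcγ : c0 * γ ≤ γ := by nlinarith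
  have hm2 : m ≤ 1 := by linarith
  have hcn : ∀ n : ℕ, c0 * γ * m ^ n ≤ c0 * γ := fun n =>
    mul_le_of_le_one_right (by positivity) (pow_le_one₀ hm0.le hm2)
  have hloop : ∀ n : ℕ, Loop H φ D D' d k γ (c0 * γ * m ^ n) (c0 * γ / D') n := by
    intro n
    induction n with
    | zero => exact loop_zero hH hD hφ hγ0 hγ ((hcn 0).trans hcγ)
    | succ n ih =>
      rw [pow_succ, ← mul_assoc]
      exact loop_succ hD' hγ0 hγ (by positivity) hc0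
        (by rw [mul_assoc, ← pow_succ]; exact hcn _) hm0 hmJ hm1 hk ih
  refine ⟨c0 * γ * m ^ N, by positivity, by linarith [hcn N], ?_⟩
  intro S M ρ 𝓕 hS h0 hρ hd Ha Hb
  obtain ⟨u, hu, huS⟩ := hH S hS
  have hn : ‖M + ρ • u - M‖ = ρ := by
    rw [add_sub_cancel_left, norm_smul, hu, mul_one, Real.norm_of_nonneg hρ.le]
  have e : Edge (S ∪ {M, M + ρ • u}) M (M + ρ • u) u ρ := by
    refine ⟨hu, by simp, by simp, fun ξ hξ => ?_, ?_, hρ, by rw [hn]; linarith⟩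
    · have h1 := hξ M (by simp)
      have h2 := hξ (M + ρ • u) (by simp)
      rw [inner_add_right, h1, zero_add, inner_smul_right] at h2
      exact (mul_eq_zero.1 h2).resolve_left hρ.ne'
    · rw [inner_add_left, inner_smul_left, real_inner_self_eq_norm_sq, hu]; simp
  have hd1 : Det (S ∪ {M, M + ρ • u}) 𝓕 := hd.mono Set.subset_union_left
  have W : ∀ ε : ℝ, (ε = 1 ∨ ε = -1) → Win D (S ∪ {M, M + ρ • u})
      (𝓕 ∩ {F | 0 * ρ ≤ ε * (φ k (F (M + ρ • u)) - φ k (F M))}) := by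
    intro ε hε
    refine hloop N _ M (M + ρ • u) u ρ ε 0 _ (hS.union (Set.toFinite _)) (Or.inl h0) e
      (by rw [hn]; nlinarith [sq_nonneg ρ]) hε (by linarith)
      (hd1.inter e.hB e.hA (fun p q => 0 * ρ ≤ ε * (φ k p - φ k q))) (fun F hF => hF.2) ?_ ?_
    · intro Z z hP
      rw [Set.union_assoc]
      exact Ha _ _ (hP.wrap hρ hu huS)
    · intro Z z z' hP hP' hne
      rw [Set.union_assoc]
      exact (Hb _ _ _ (hP.wrap hρ hu huS) (hP'.wrap hρ hu huS) hne).mono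
        fun F hF => ⟨hF.1.1, hF.2⟩
  refine Win.ext' (S' := S ∪ {M, M + ρ • u}) h0 Set.subset_union_left ?_ hd
  refine Win.cover (W 1 (Or.inl rfl)) (W (-1) (Or.inr rfl)) fun F hF => ?_
  rcases le_total (φ k (F M)) (φ k (F (M + ρ • u))) with h | h
  · exact Or.inl ⟨hF, by simp only [Set.mem_ofPred_eq]; linarith⟩
  · exact Or.inr ⟨hF, by simp only [Set.mem_ofPred_eq]; linarith⟩

theorem good_zero_union {X : Set H} (h : G1 Λ0 X) : Good ({0} ∪ X) := by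
  classical
  intro r hr Q hQ hs hd
  have h1 := h r hr (Q.erase 0) (fun p hp => by
    have hp' := Finset.mem_erase.1 hp
    exact (hQ hp'.2).resolve_left hp'.1) (hs.mono (Finset.erase_subset _ _))
    (fun p hp q hq => hd p (Finset.mem_of_mem_erase hp) q (Finset.mem_of_mem_erase hq))
  have h2 : Q.card ≤ (Q.erase 0).card + 1 := by
    have := Finset.pred_card_le_card_erase (s := Q) (a := 0)
    omega
  have h3 : (Q.card : ℝ) ≤ (Q.erase 0).card + 1 := by exact_mod_cast h2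
  linarith

theorem win_top (hH : Fresh H) {φ : ℕ → E → ℝ} {D K : ℝ} (hD : 0 < D) (hK : 0 < K) {d : ℕ}
    (hφ1 : ∀ k, ∀ a b : E, |φ k a - φ k b| ≤ ‖a - b‖)
    (hφ2 : ∀ a b : E, a ≠ b → ∃ j < d, ‖a - b‖ ≤ K * |φ j a - φ j b|) :
    Win D ({0} : Set H) (Set.univ : Set (H → E)) := by
  have key : ∀ k, ∃ c : ℝ, 0 < c ∧ c ≤ 1 ∧ Claim H φ D (D * K) d k c := by
    intro k
    induction k with
    | zero => exact ⟨1, one_pos, le_rfl, claim_zero hH hD.le hφ2⟩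
    | succ k ih =>
      obtain ⟨c, h1, h2, h3⟩ := ih
      exact claim_succ hH hD (mul_pos hD hK) (hφ1 k) h1 h2 h3
  obtain ⟨c, -, -, h⟩ := key d
  refine h {0} 0 1 Set.univ (Set.toFinite _) rfl one_pos (fun _ _ _ _ => trivial)
    (fun X x hX => good_zero_union hX.g1) fun X x x' hX _ _ => ?_
  refine Win.leaf ((Set.toFinite _).union hX.fin) (Or.inl rfl) (good_zero_union hX.g1) ?_
  rintro G ⟨-, j, h1, h2, -⟩
  omega

end Crest.Agent.R254
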