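import Mathlib

/-!
Geometry of the configurations produced by the online game (row 254).
-/

set_option autoImplicit false
set_option linter.unusedSectionVars false

namespace Crest.Agent.R254

open scoped RealInnerProductSpace

variable {H : Type*} [NormedAddCommGroup H] [InnerProductSpace ℝ H]

/-- Counting lemma on the line. -/
theorem card_le_of_line {α : Type*} (Q : Finset α) (φ : α → ℝ) (s : ℝ) (hs : 0 < s) (n : ℕ)
    (h1 : ∀ p ∈ Q, ∀ q ∈ Q, p ≠ q → s < |φ p - φ q|)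
    (h2 : ∀ p ∈ Q, ∀ q ∈ Q, |φ p - φ q| ≤ n * s) : Q.card ≤ n + 1 := by
  rcases Q.eq_empty_or_nonempty with rfl | hne
  · simp
  obtain ⟨p0, hp0, hmin⟩ := Q.exists_min_image φ hne
  have : Q.card ≤ (Finset.range (n + 1)).card := by
    apply Finset.card_le_card_of_injOn (fun p => ⌊(φ p - φ p0) / s⌋₊)
    · intro p hp
      have hp' : p ∈ Q := hp
      simp only [Finset.coe_range, Set.mem_Iio]
      rw [Nat.lt_succ_iff]
      apply Nat.floor_le_of_le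
      rw [div_le_iff₀ hs]
      exact (le_abs_self _).trans (h2 p hp' p0 hp0)
    · intro p hp q hq hpq
      have hp' : p ∈ Q := hp
      have hq' : q ∈ Q := hq
      by_contra hne
      have h := h1 p hp' q hq' hne
      have a1 : 0 ≤ (φ p - φ p0) / s := div_nonneg (sub_nonneg.2 (hmin p hp')) hs.le
      have a2 : 0 ≤ (φ q - φ p0) / s := div_nonneg (sub_nonneg.2 (hmin q hq')) hs.le
      have b1 := Nat.floor_le a1
      have b2 := Nat.floor_le a2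
      have c1 := Nat.lt_floor_add_one ((φ p - φ p0) / s)
      have c2 := Nat.lt_floor_add_one ((φ q - φ p0) / s)
      simp only at hpq
      rw [hpq] at b1 c1
      have d1 : (φ p - φ p0) / s - (φ q - φ p0) / s < 1 := by linarith
      have d2 : (φ q - φ p0) / s - (φ p - φ p0) / s < 1 := by linarith
      rw [← sub_div, div_lt_one hs] at d1 d2
      have : |φ p - φ q| < s := by rw [abs_lt]; constructor <;> linarith
      linarith
  simpa using this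

/-- `r`-separated finite sets. -/
def Sep (Q : Finset H) (r : ℝ) : Prop := ∀ p ∈ Q, ∀ q ∈ Q, p ≠ q → r < ‖p - q‖

theorem Sep.mono {Q Q' : Finset H} {r : ℝ} (h : Sep Q r) (hQ : Q' ⊆ Q) : Sep Q' r :=
  fun p hp q hq => h p (hQ hp) q (hQ hq)

/-- No large quasi-equilateral subsets. -/
def G1 (Λ : ℝ) (X : Set H) : Prop :=
  ∀ r : ℝ, 0 < r → ∀ Q : Finset H, ↑Q ⊆ X → Sep Q r → (∀ p ∈ Q, ∀ q ∈ Q, ‖p - q‖ ≤ 32 * r) →
    (Q.card : ℝ) ≤ Λ

/-- The energy invariant around the last point. -/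
def G2 (X : Set H) (z : H) : Prop :=
  ∀ r : ℝ, 0 < r → ∀ R2 a2 : ℝ, R2 ≤ (32 * r) ^ 2 → ∀ Q : Finset H, ↑Q ⊆ X → Q.Nonempty →
    Sep Q r → (∀ q ∈ Q, a2 ≤ ‖q - z‖ ^ 2 ∧ ‖q - z‖ ^ 2 ≤ R2) →
    (Q.card : ℝ) * r ^ 2 ≤ 402 * r ^ 2 + 1000000 * R2 - 2 * a2

theorem G1.mono {Λ : ℝ} {X Y : Set H} (h : G1 Λ X) (hY : Y ⊆ X) : G1 Λ Y :=
  fun r hr Q hQ => h r hr Q (hQ.trans hY)

/-- The universal bound. -/
def Λ0 : ℝ := 2000000000

theorem G2_of_card_le {r R2 a2 : ℝ} {Q : Finset H} {z : H} (hne : Q.Nonempty)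
    (h : ∀ q ∈ Q, a2 ≤ ‖q - z‖ ^ 2 ∧ ‖q - z‖ ^ 2 ≤ R2) (hc : Q.card ≤ 402) :
    (Q.card : ℝ) * r ^ 2 ≤ 402 * r ^ 2 + 1000000 * R2 - 2 * a2 := by
  obtain ⟨q, hq⟩ := hne
  obtain ⟨h1, h2⟩ := h q hq
  have h3 : 0 ≤ ‖q - z‖ ^ 2 := sq_nonneg _
  have hc' : (Q.card : ℝ) ≤ 402 := by exact_mod_cast hc
  have : (Q.card : ℝ) * r ^ 2 ≤ 402 * r ^ 2 := mul_le_mul_of_nonneg_right hc' (sq_nonneg _)
  nlinarith

/-- A finished cluster around `M` of size `ρ`, orthogonal to `S`, with last point `x`. -/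
structure Cl (S : Set H) (M : H) (ρ c : ℝ) (X : Set H) (x : H) : Prop where
  fin : X.Finite
  mem : x ∈ X
  orth : ∀ p ∈ X, ∀ s ∈ S, ⟪p - M, s⟫ = 0
  bd : ∀ p ∈ X, ‖p - M‖ ≤ 2 * ρ
  g1 : G1 Λ0 X
  g2 : G2 X x
  iso : ∀ p ∈ X, p ≠ x → c * ρ ≤ ‖p - x‖

/-- The set `Z` of points played on the edge `(A, B)` with time direction `u`, last point `z`. -/
structure Pl (S : Set H) (A B u : H) (c : ℝ) (Z : Set H) (z : H) : Prop where
  fin : Z.Finite
  mem : z ∈ Z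
  orth : ∀ p ∈ Z, ∃ a b : ℝ, a + b = 1 ∧ ∀ s ∈ S, ⟪p - (a • A + b • B), s⟫ = 0
  lensA : ∀ p ∈ Z, ‖p - A‖ ≤ 2 * (⟪p, u⟫ - ⟪A, u⟫)
  lensB : ∀ p ∈ Z, ‖p - B‖ ≤ 2 * (⟪B, u⟫ - ⟪p, u⟫)
  lin : ∀ p ∈ Z, ∀ q ∈ Z, ‖p - q‖ ≤ 3 * |⟪p, u⟫ - ⟪q, u⟫| +
    (1 / 128) * min (⟪p, u⟫ - ⟪A, u⟫) (⟪B, u⟫ - ⟪p, u⟫)
  g1 : G1 Λ0 Z
  g2 : G2 Z z
  isoA : c * (⟪B, u⟫ - ⟪A, u⟫) ≤ ⟪z, u⟫ - ⟪A, u⟫
  isoB : c * (⟪B, u⟫ - ⟪A, u⟫) ≤ ⟪B, u⟫ - ⟪z, u⟫
  iso : ∀ p ∈ Z, p ≠ z → c * (⟪B, u⟫ - ⟪A, u⟫) ≤ ‖p - z‖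

theorem Pl.swap {S : Set H} {A B u : H} {c : ℝ} {Z : Set H} {z : H} (h : Pl S A B u c Z z) :
    Pl S B A (-u) c Z z where
  fin := h.fin
  mem := h.mem
  orth p hp := by
    obtain ⟨a, b, hab, h'⟩ := h.orth p hp
    exact ⟨b, a, by linarith, fun s hs => by rw [add_comm]; exact h' s hs⟩
  lensA p hp := by have := h.lensB p hp; simp only [inner_neg_right]; linarith
  lensB p hp := by have := h.lensA p hp; simp only [inner_neg_right]; linarith
  lin p hp q hq := by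
    have := h.lin p hp q hq
    simp only [inner_neg_right]
    rw [min_comm]
    have e1 : -⟪p, u⟫ - -⟪q, u⟫ = -(⟪p, u⟫ - ⟪q, u⟫) := by ring
    have e2 : -⟪A, u⟫ - -⟪p, u⟫ = ⟪p, u⟫ - ⟪A, u⟫ := by ring
    have e3 : -⟪p, u⟫ - -⟪B, u⟫ = ⟪B, u⟫ - ⟪p, u⟫ := by ring
    rw [e1, e2, e3, abs_neg]
    exact this
  g1 := h.g1
  g2 := h.g2
  isoA := by have := h.isoB; simp only [inner_neg_right]; linarith
  isoB := by have := h.isoA; simp only [inner_neg_right]; linarith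
  iso p hp hne := by have := h.iso p hp hne; simp only [inner_neg_right]; linarith

theorem Pl.mono {S : Set H} {A B u : H} {c c' : ℝ} {Z : Set H} {z : H} (h : Pl S A B u c Z z)
    (hc : c' ≤ c) (hl : 0 ≤ ⟪B, u⟫ - ⟪A, u⟫) : Pl S A B u c' Z z where
  fin := h.fin
  mem := h.mem
  orth := h.orth
  lensA := h.lensA
  lensB := h.lensB
  lin := h.lin
  g1 := h.g1
  g2 := h.g2
  isoA := (mul_le_mul_of_nonneg_right hc hl).trans h.isoA
  isoB := (mul_le_mul_of_nonneg_right hc hl).trans h.isoB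
  iso p hp hne := (mul_le_mul_of_nonneg_right hc hl).trans (h.iso p hp hne)

theorem abs_inner_sub_le {u : H} (hu : ‖u‖ = 1) (p q : H) : |⟪p, u⟫ - ⟪q, u⟫| ≤ ‖p - q‖ := by
  rw [← inner_sub_left]
  have := abs_real_inner_le_norm (p - q) u
  rwa [hu, mul_one] at this

/-- Line count: points that are nearly a Lipschitz graph over the time coordinate. -/
theorem card_le_line {u : H} (hu : ‖u‖ = 1) {r : ℝ} (hr : 0 < r) (Q : Finset H) (hs : Sep Q r)
    (h1 : ∀ p ∈ Q, ∀ q ∈ Q, ‖p - q‖ ≤ 3 * |⟪p, u⟫ - ⟪q, u⟫| + r / 2)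
    (h2 : ∀ p ∈ Q, ∀ q ∈ Q, ‖p - q‖ ≤ 64 * r) : Q.card ≤ 385 := by
  apply card_le_of_line Q (fun p => ⟪p, u⟫) (r / 6) (by positivity) 384
  · intro p hp q hq hne
    have := hs p hp q hq hne
    have := h1 p hp q hq
    linarith
  · intro p hp q hq
    have := abs_inner_sub_le hu p q
    have := h2 p hp q hq
    push_cast
    linarith

theorem norm_sub_le_of_sq {p q z : H} {r R2 : ℝ} (hr : 0 < r) (hR : R2 ≤ (32 * r) ^ 2)
    (hp : ‖p - z‖ ^ 2 ≤ R2) (hq : ‖q - z‖ ^ 2 ≤ R2) : ‖p - q‖ ≤ 64 * r := by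
  have a1 : ‖p - z‖ ≤ 32 * r := by
    apply abs_le_of_sq_le_sq' _ (by positivity) |>.2; linarith
  have a2 : ‖q - z‖ ≤ 32 * r := by
    apply abs_le_of_sq_le_sq' _ (by positivity) |>.2; linarith
  have := norm_sub_le_norm_sub_add_norm_sub p z q
  rw [norm_sub_rev z q] at this
  linarith

/-- Points played on an edge, seen from a point whose time lies outside the edge. -/
theorem Pl.card_le {S : Set H} {A B u : H} {c : ℝ} {Z : Set H} {z : H} (h : Pl S A B u c Z z)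
    (hu : ‖u‖ = 1) {r : ℝ} (q0 : H) (hq0 : ⟪q0, u⟫ ≤ ⟪A, u⟫ ∨ ⟪B, u⟫ ≤ ⟪q0, u⟫)
    {p q : H} (hp : p ∈ Z) (hq : q ∈ Z) (hd : ‖p - q0‖ ≤ 64 * r) :
    ‖p - q‖ ≤ 3 * |⟪p, u⟫ - ⟪q, u⟫| + r / 2 := by
  have h1 := h.lin p hp q hq
  have h2 := abs_inner_sub_le hu p q0
  have h3 := abs_le.1 h2
  have h4 := min_le_left (⟪p, u⟫ - ⟪A, u⟫) (⟪B, u⟫ - ⟪p, u⟫)
  have h5 := min_le_right (⟪p, u⟫ - ⟪A, u⟫) (⟪B, u⟫ - ⟪p, u⟫)
  rcases hq0 with h6 | h6 <;> linarith [h3.1, h3.2]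

/-- A level-zero cluster: a fresh pair. -/
theorem cl_pair {S : Set H} {M u : H} {ρ : ℝ} (hρ : 0 < ρ) (hu : ‖u‖ = 1)
    (huS : ∀ s ∈ S, ⟪u, s⟫ = 0) {x : H} (hx : x = M ∨ x = M + ρ • u) :
    Cl S M ρ 1 {M, M + ρ • u} x := by
  classical
  have hn : ‖ρ • u‖ = ρ := by rw [norm_smul, hu, mul_one, Real.norm_of_nonneg hρ.le]
  have hcard : ∀ Q : Finset H, (↑Q : Set H) ⊆ {M, M + ρ • u} → Q.card ≤ 2 := by
    intro Q hQ
    have : Q ⊆ {M, M + ρ • u} := by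
      intro p hp; have := hQ hp; simpa using this
    exact (Finset.card_le_card this).trans Finset.card_le_two
  refine ⟨Set.toFinite _, by rcases hx with rfl | rfl <;> simp, ?_, ?_, ?_, ?_, ?_⟩
  · intro p hp s hs
    rcases hp with rfl | rfl
    · simp
    · simp [inner_smul_left, huS s hs]
  · intro p hp
    rcases hp with rfl | rfl
    · simp; positivity
    · simp only [add_sub_cancel_left, hn]; linarith
  · intro r _ Q hQ _ _
    have : (Q.card : ℝ) ≤ 2 := by exact_mod_cast hcard Q hQ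
    unfold Λ0; linarith
  · intro r _ R2 a2 _ Q hQ hne _ h
    exact G2_of_card_le hne h ((hcard Q hQ).trans (by norm_num))
  · intro p hp hne
    rcases hp with rfl | rfl <;> rcases hx with rfl | rfl
    · exact absurd rfl hne
    · rw [norm_sub_rev]; simp [hn]
    · simp [hn]
    · exact absurd rfl hne

/-- Wrapping up a level: the initial edge together with everything played on it is a cluster. -/
theorem Pl.wrap {S : Set H} {M u : H} {ρ c : ℝ} (hρ : 0 < ρ) (hu : ‖u‖ = 1)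
    (huS : ∀ s ∈ S, ⟪u, s⟫ = 0) {Z : Set H} {z : H}
    (h : Pl (S ∪ {M, M + ρ • u}) M (M + ρ • u) u c Z z) :
    Cl S M ρ c ({M, M + ρ • u} ∪ Z) z := by
  classical
  have hn : ‖ρ • u‖ = ρ := by rw [norm_smul, hu, mul_one, Real.norm_of_nonneg hρ.le]
  have hB : ⟪M + ρ • u, u⟫ = ⟪M, u⟫ + ρ := by
    rw [inner_add_left, inner_smul_left, real_inner_self_eq_norm_sq, hu]; simp
  -- the case when an endpoint is in `Q`
  have key : ∀ r : ℝ, 0 < r → ∀ Q : Finset H, (↑Q : Set H) ⊆ {M, M + ρ • u} ∪ Z → Sep Q r →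
      (∀ p ∈ Q, ∀ q ∈ Q, ‖p - q‖ ≤ 64 * r) → ¬ ((↑Q : Set H) ⊆ Z) → Q.card ≤ 402 := by
    intro r hr Q hQ hs hd hnot
    obtain ⟨q0, hq0, hq0Z⟩ := Set.not_subset.1 hnot
    have hq0' : ⟪q0, u⟫ ≤ ⟪M, u⟫ ∨ ⟪M + ρ • u, u⟫ ≤ ⟪q0, u⟫ := by
      rcases hQ hq0 with (rfl | rfl) | h'
      · exact Or.inl le_rfl
      · exact Or.inr le_rfl
      · exact absurd h' hq0Z
    have h1 : (Q.filter (· ∈ Z)).card ≤ 385 := by
      apply card_le_line hu hr _ (hs.mono (Finset.filter_subset _ _))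
      · intro p hp q hq
        rw [Finset.mem_filter] at hp hq
        exact h.card_le hu q0 hq0' hp.2 hq.2 (hd p hp.1 q0 hq0)
      · intro p hp q hq
        rw [Finset.mem_filter] at hp hq
        exact hd p hp.1 q hq.1
    have h2 : Q ⊆ {M, M + ρ • u} ∪ Q.filter (· ∈ Z) := by
      intro p hp
      rcases hQ hp with (rfl | rfl) | h'
      · simp
      · simp
      · simp [hp, h']
    have h3 := Finset.card_le_card h2
    have h4 := Finset.card_union_le ({M, M + ρ • u} : Finset H) (Q.filter (· ∈ Z))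
    have h5 : ({M, M + ρ • u} : Finset H).card ≤ 2 := Finset.card_le_two
    omega
  refine ⟨(Set.toFinite _).union h.fin, Or.inr h.mem, ?_, ?_, ?_, ?_, ?_⟩
  · intro p hp s hs
    rcases hp with (rfl | rfl) | hp
    · simp
    · simp [inner_smul_left, huS s hs]
    · obtain ⟨a, b, hab, h'⟩ := h.orth p hp
      have e : p - M = (p - (a • M + b • (M + ρ • u))) + (b * ρ) • u := by
        have : a = 1 - b := by linarith
        subst this
        module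
      rw [e, inner_add_left, h' s (Or.inl hs), inner_smul_left, huS s hs]; simp
  · intro p hp
    rcases hp with (rfl | rfl) | hp
    · simp; positivity
    · simp only [add_sub_cancel_left, hn]; linarith
    · have h1 := h.lensA p hp
      have h2 := h.lensB p hp
      have h3 := norm_nonneg (p - (M + ρ • u))
      linarith
  · intro r hr Q hQ hs hd
    by_cases hZ : (↑Q : Set H) ⊆ Z
    · exact h.g1 r hr Q hZ hs hd
    · have := key r hr Q hQ hs (fun p hp q hq => (hd p hp q hq).trans (by linarith)) hZ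
      have : (Q.card : ℝ) ≤ 402 := by exact_mod_cast this
      unfold Λ0; linarith
  · intro r hr R2 a2 hR Q hQ hne hs hd
    by_cases hZ : (↑Q : Set H) ⊆ Z
    · exact h.g2 r hr R2 a2 hR Q hZ hne hs hd
    · exact G2_of_card_le hne hd (key r hr Q hQ hs
        (fun p hp q hq => norm_sub_le_of_sq hr hR (hd p hp).2 (hd q hq).2) hZ)
  · intro p hp hne
    rcases hp with (rfl | rfl) | hp
    · have h1 := h.isoA
      have h2 := abs_le.1 (abs_inner_sub_le hu p z)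
      rw [hB] at h1
      have : c * (⟪p, u⟫ + ρ - ⟪p, u⟫) = c * ρ := by ring
      linarith [h2.1]
    · have h1 := h.isoB
      have h2 := abs_le.1 (abs_inner_sub_le hu (M + ρ • u) z)
      have : c * (⟪M + ρ • u, u⟫ - ⟪M, u⟫) = c * ρ := by rw [hB]; ring
      linarith [h2.2]
    · have h1 := h.iso p hp hne
      have : c * (⟪M + ρ • u, u⟫ - ⟪M, u⟫) = c * ρ := by rw [hB]; ring
      linarith

/-- Data of a current edge. -/
structure Edge (S : Set H) (A B u : H) (ℓ : ℝ) : Prop where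
  hu : ‖u‖ = 1
  hA : A ∈ S
  hB : B ∈ S
  huS : ∀ ξ : H, (∀ s ∈ S, ⟪ξ, s⟫ = 0) → ⟪ξ, u⟫ = 0
  hℓ : ⟪B, u⟫ - ⟪A, u⟫ = ℓ
  pos : 0 < ℓ
  len : ‖B - A‖ ≤ 3 / 2 * ℓ

theorem Edge.swap {S : Set H} {A B u : H} {ℓ : ℝ} (h : Edge S A B u ℓ) : Edge S B A (-u) ℓ where
  hu := by rw [norm_neg, h.hu]
  hA := h.hB
  hB := h.hA
  huS ξ hξ := by rw [inner_neg_right, h.huS ξ hξ, neg_zero]
  hℓ := by simp only [inner_neg_right]; linarith [h.hℓ]
  pos := h.pos
  len := by rw [norm_sub_rev]; exact h.len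

/-- The midpoint. -/
noncomputable def mid (A B : H) : H := (1 / 2 : ℝ) • A + (1 / 2 : ℝ) • B

theorem mid_comm (A B : H) : mid A B = mid B A := add_comm _ _

theorem Edge.time_cl {S : Set H} {A B u : H} {ℓ : ℝ} (e : Edge S A B u ℓ) {ρ c : ℝ} {X : Set H}
    {x : H} (h : Cl S (mid A B) ρ c X x) {p : H} (hp : p ∈ X) : ⟪p, u⟫ = ⟪A, u⟫ + ℓ / 2 := by
  have h1 := e.huS _ (h.orth p hp)
  have h2 := e.hℓ
  rw [inner_sub_left, mid, inner_add_left, inner_smul_left, inner_smul_left] at h1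
  simp only [conj_trivial] at h1
  linarith

theorem Edge.base {S : Set H} {A B u : H} {ℓ : ℝ} (e : Edge S A B u ℓ) {γ c0 c : ℝ}
    (hγ : γ ≤ 1 / 2048) (hc : c ≤ c0 * γ) (hc' : c ≤ 1 / 2) {X : Set H} {x : H}
    (h : Cl S (mid A B) (γ * ℓ) c0 X x) : Pl S A B u c X x := by
  have hℓ := e.hℓ
  have hpos := e.pos
  have hlen := e.len
  have hγℓ : γ * ℓ ≤ ℓ / 2048 := by nlinarith
  have hmA : ‖mid A B - A‖ ≤ 3 / 4 * ℓ := by
    have : mid A B - A = (1 / 2 : ℝ) • (B - A) := by unfold mid; module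
    rw [this, norm_smul, Real.norm_of_nonneg (by norm_num)]; linarith
  have hmB : ‖mid A B - B‖ ≤ 3 / 4 * ℓ := by
    have : mid A B - B = (1 / 2 : ℝ) • (A - B) := by unfold mid; module
    rw [this, norm_smul, Real.norm_of_nonneg (by norm_num), norm_sub_rev]; linarith
  refine ⟨h.fin, h.mem, ?_, ?_, ?_, ?_, h.g1, h.g2, ?_, ?_, ?_⟩
  · intro p hp
    exact ⟨1 / 2, 1 / 2, by norm_num, h.orth p hp⟩
  · intro p hp
    have := norm_sub_le_norm_sub_add_norm_sub p (mid A B) A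
    have := h.bd p hp
    have := e.time_cl h hp
    linarith
  · intro p hp
    have := norm_sub_le_norm_sub_add_norm_sub p (mid A B) B
    have := h.bd p hp
    have := e.time_cl h hp
    linarith
  · intro p hp q hq
    have h1 := norm_sub_le_norm_sub_add_norm_sub p (mid A B) q
    have h2 := h.bd p hp
    have h3 := h.bd q hq
    rw [norm_sub_rev (mid A B) q] at h1
    have h4 := e.time_cl h hp
    have h5 : min (⟪p, u⟫ - ⟪A, u⟫) (⟪B, u⟫ - ⟪p, u⟫) = ℓ / 2 := by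
      have e1 : ⟪p, u⟫ - ⟪A, u⟫ = ℓ / 2 := by linarith
      have e2 : ⟪B, u⟫ - ⟪p, u⟫ = ℓ / 2 := by linarith
      rw [e1, e2, min_self]
    rw [h5]
    have := abs_nonneg (⟪p, u⟫ - ⟪q, u⟫)
    linarith
  · have := e.time_cl h h.mem
    rw [hℓ]; nlinarith
  · have := e.time_cl h h.mem
    rw [hℓ]; nlinarith
  · intro p hp hne
    have := h.iso p hp hne
    rw [hℓ]; nlinarith

end Crest.Agent.R254
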