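import Crest.Agent.R254.Win

/-!
Emulating the online game by a "movie": a family of parallel time-segments.
-/

set_option autoImplicit false
set_option linter.unusedSectionVars false

namespace Crest.Agent.R254

open scoped RealInnerProductSpace

variable {H : Type*} [NormedAddCommGroup H] {E : Type*} [NormedAddCommGroup E]
  [InnerProductSpace ℝ E]

theorem exists_pos_le_of_finite {α : Type*} {T : Set α} (hT : T.Finite) (g : α → ℝ)
    (hg : ∀ x ∈ T, 0 < g x) : ∃ σ : ℝ, 0 < σ ∧ ∀ x ∈ T, σ ≤ g x := by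
  rcases T.eq_empty_or_nonempty with rfl | hne
  · exact ⟨1, one_pos, by simp⟩
  · obtain ⟨x, hx, hmin⟩ := hT.exists_minimalFor g T hne
    refine ⟨g x, hg x hx, fun y hy => ?_⟩
    by_contra h
    exact h (hmin hy (not_le.1 h).le)

theorem exists_sep_of_finite {S : Set H} (hS : S.Finite) :
    ∃ σ : ℝ, 0 < σ ∧ ∀ p ∈ S, ∀ q ∈ S, p ≠ q → σ ≤ ‖p - q‖ := by
  obtain ⟨σ, hσ, h⟩ := exists_pos_le_of_finite
    ((hS.prod hS).subset (s := S ×ˢ S) (t := {x ∈ S ×ˢ S | x.1 ≠ x.2}) (fun x hx => hx.1))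
    (fun x => ‖x.1 - x.2‖) (fun x hx => norm_pos_iff.2 (sub_ne_zero.2 hx.2))
  exact ⟨σ, hσ, fun p hp q hq hne => h (p, q) ⟨⟨hp, hq⟩, hne⟩⟩

theorem exists_bound_of_finite {S : Set H} (hS : S.Finite) :
    ∃ ν : ℝ, 0 < ν ∧ ∀ p ∈ S, ‖p‖ ≤ ν := by
  obtain ⟨ν, hν, h⟩ := hS.isBounded.exists_pos_norm_le
  exact ⟨ν, hν, h⟩

theorem exists_step_le (u : ℕ → ℝ) (n : ℕ) (hn : 0 < n) (δ : ℝ) (h : u n - u 0 ≤ n * δ) :
    ∃ j < n, u (j + 1) - u j ≤ δ := by
  by_contra hc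
  push Not at hc
  have key : ∀ k ≤ n, 0 < k → u 0 + k * δ < u k := by
    intro k hk hk0
    induction k with
    | zero => omega
    | succ k ih =>
      have h1 := hc k (by omega)
      rcases Nat.eq_zero_or_pos k with rfl | hk'
      · simp at h1 ⊢; linarith
      · have := ih (by omega) hk'
        push_cast; linarith
  have := key n le_rfl hn
  linarith

/-- Admissible time-dependent placements on the space-time set `I`. -/
structure Adm (D : ℝ) (I : ℝ → H → Prop) (f : ℝ → H → E) (lam : ℝ) : Prop where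
  bil : ∀ s, BiLip D (f s) {p | I s p}
  lip : ∀ p a b, a ≤ b → (∀ s, a ≤ s → s ≤ b → I s p) → ‖f b p - f a p‖ ≤ lam * (b - a)

theorem Adm.shift {D : ℝ} {I I' : ℝ → H → Prop} {f : ℝ → H → E} {lam : ℝ} (h : Adm D I f lam)
    (t : ℝ) (hI : ∀ s p, I' s p → I (s + t) p) : Adm D I' (fun s => f (s + t)) lam where
  bil s := (h.bil (s + t)).mono (fun p hp => hI s p hp)
  lip p a b hab hs := by
    have := h.lip p (a + t) (b + t) (by linarith) (fun s h1 h2 => by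
      have := hI (s - t) p (hs _ (by linarith) (by linarith))
      rwa [sub_add_cancel] at this)
    rwa [add_sub_add_right_eq_sub] at this

theorem Adm.defect {D : ℝ} {I : ℝ → H → Prop} {f : ℝ → H → E} {lam : ℝ} (h : Adm D I f lam)
    {v : E} (hv : ‖v‖ = 1) {p : H} {a b : ℝ} (hab : a ≤ b) (hs : ∀ s, a ≤ s → s ≤ b → I s p) :
    ⟪f b p - f a p, v⟫ ≤ lam * (b - a) := by
  have h1 := real_inner_le_norm (f b p - f a p) v
  rw [hv, mul_one] at h1
  exact h1.trans (h.lip p a b hab hs)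

theorem Adm.sub_defect {D : ℝ} {I : ℝ → H → Prop} {f : ℝ → H → E} {lam : ℝ} (h : Adm D I f lam)
    {v : E} (hv : ‖v‖ = 1) {p : H} {a a' b' b δ : ℝ} (h1 : a ≤ a') (h2 : a' ≤ b') (h3 : b' ≤ b)
    (hs : ∀ s, a ≤ s → s ≤ b → I s p) (hd : lam * (b - a) - δ ≤ ⟪f b p - f a p, v⟫) :
    lam * (b' - a') - δ ≤ ⟪f b' p - f a' p, v⟫ := by
  have e1 := h.defect hv h1 (fun s x y => hs s x (by linarith))
  have e2 := h.defect hv h3 (fun s x y => hs s (by linarith) y)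
  simp only [inner_sub_left] at *
  linarith

theorem Adm.rigid {D : ℝ} {I : ℝ → H → Prop} {f : ℝ → H → E} {lam : ℝ} (h : Adm D I f lam)
    (hl0 : 0 ≤ lam) (hl : lam ≤ D) {v : E} (hv : ‖v‖ = 1) {p : H} {L δ η t : ℝ} (h0 : 0 ≤ t)
    (ht : t ≤ L) (hδ : 0 ≤ δ) (hη : 0 < η) (hs : ∀ s, 0 ≤ s → s ≤ L → I s p)
    (hd : lam * L - δ ≤ ⟪f L p - f 0 p, v⟫) (hsm : 32 * D * L * δ ≤ η ^ 2) :
    ‖f t p - f 0 p - (lam * t) • v‖ ≤ η / 4 := by
  have e1 := h.sub_defect hv le_rfl h0 ht hs (by simpa using hd)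
  have e2 := h.lip p 0 t h0 (fun s x y => hs s x (by linarith))
  rw [sub_zero] at e1 e2
  apply abs_le_of_sq_le_sq' _ (by positivity) |>.2
  rw [norm_sub_sq_real, inner_smul_right, norm_smul, hv, mul_one, Real.norm_eq_abs, sq_abs]
  have e3 : ‖f t p - f 0 p‖ ^ 2 ≤ (lam * t) ^ 2 := pow_le_pow_left₀ (norm_nonneg _) e2 2
  have e4 : 0 ≤ lam * t := mul_nonneg hl0 h0
  have e5 : lam * t ≤ D * L := mul_le_mul hl ht h0 (hl0.trans hl)
  have e6 : lam * t * (lam * t - δ) ≤ lam * t * ⟪f t p - f 0 p, v⟫ :=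
    mul_le_mul_of_nonneg_left e1 e4
  have e7 : lam * t * δ ≤ D * L * δ := mul_le_mul_of_nonneg_right e5 hδ
  nlinarith

theorem Adm.drift {D : ℝ} {I : ℝ → H → Prop} {f : ℝ → H → E} {lam : ℝ} (h : Adm D I f lam)
    (hl0 : 0 ≤ lam) (hl : lam ≤ D) {v : E} (hv : ‖v‖ = 1) {p q : H} {L δ η t : ℝ} (h0 : 0 ≤ t)
    (ht : t ≤ L) (hδ : 0 ≤ δ) (hη : 0 < η) (hs : ∀ s, 0 ≤ s → s ≤ L → I s p)
    (hs' : ∀ s, 0 ≤ s → s ≤ L → I s q)
    (hd : lam * L - δ ≤ ⟪f L p - f 0 p, v⟫) (hd' : lam * L - δ ≤ ⟪f L q - f 0 q, v⟫)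
    (hsm : 32 * D * L * δ ≤ η ^ 2) :
    ‖(f t p - f t q) - (f 0 p - f 0 q)‖ ≤ η / 2 := by
  have e1 := h.rigid hl0 hl hv h0 ht hδ hη hs hd hsm
  have e2 := h.rigid hl0 hl hv h0 ht hδ hη hs' hd' hsm
  have e3 : (f t p - f t q) - (f 0 p - f 0 q) =
      (f t p - f 0 p - (lam * t) • v) - (f t q - f 0 q - (lam * t) • v) := by abel
  rw [e3]
  linarith [norm_sub_le (f t p - f 0 p - (lam * t) • v) (f t q - f 0 q - (lam * t) • v)]

/-- The space-time set of a movie over the root configuration `S`. -/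
def InM (S : Set H) (L : ℝ) (Mv : H → Set ℝ) (s : ℝ) (p : H) : Prop :=
  (0 ≤ s ∧ s ≤ L ∧ p ∈ S) ∨ s ∈ Mv p

/-- The movie forces the initial placement of `S` to be far from `𝓕`. -/
def Forces (D : ℝ) (S : Set H) (𝓕 : Set (H → E)) (η L δ : ℝ) (Mv : H → Set ℝ) : Prop :=
  ∀ (f : ℝ → H → E) (lam : ℝ) (v : E), ‖v‖ = 1 → 0 ≤ lam → lam ≤ D →
    Adm D (InM S L Mv) f lam → (∀ p ∈ S, lam * L - δ ≤ ⟪f L p - f 0 p, v⟫) →
    ∀ G ∈ 𝓕, ∃ p ∈ S, η < ‖(f 0 p - f 0 0) - (G p - G 0)‖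

/-- Geometry of a movie. -/
structure Mov (S U : Set H) (R L : ℝ) (Mv : H → Set ℝ) : Prop where
  closed : ∀ p, IsClosed (Mv p)
  supp : ∀ p, ∀ s ∈ Mv p, R ≤ s ∧ s ≤ L - R ∧ p ∈ U
  good : ∀ s0, Good (S ∪ {p | ∃ s ∈ Mv p, s0 ≤ s ∧ s ≤ s0 + R})

/-- Realisable wins. -/
def RW (D : ℝ) (S : Set H) (𝓕 : Set (H → E)) : Prop :=
  ∃ U : Set H, U.Finite ∧ ∀ R : ℝ, 0 < R → ∃ η L δ : ℝ, 0 < η ∧ 0 < L ∧ 0 < δ ∧
    ∃ Mv : H → Set ℝ, Mov S U R L Mv ∧ Forces D S 𝓕 η L δ Mv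

/-- Periodic repetition of a movie. -/
def rep (Mv : H → Set ℝ) (t L : ℝ) (n : ℕ) (p : H) : Set ℝ :=
  {s | ∃ k < n, s - (t + k * L) ∈ Mv p}

theorem Mov.rep_closed {S U : Set H} {R L : ℝ} {Mv : H → Set ℝ} (h : Mov S U R L Mv) (t : ℝ)
    (n : ℕ) (p : H) : IsClosed (rep Mv t L n p) := by
  have : rep Mv t L n p = ⋃ k ∈ Finset.range n, (fun s => s - (t + k * L)) ⁻¹' Mv p := by
    ext s; simp [rep]
  rw [this]
  exact isClosed_biUnion_finset fun k _ => (h.closed p).preimage (by fun_prop)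

theorem Mov.rep_good {S U : Set H} {R L : ℝ} {Mv : H → Set ℝ} (h : Mov S U R L Mv) (hR : 0 < R)
    (hL : 0 < L) (t : ℝ) (n : ℕ) (s0 : ℝ) :
    Good (S ∪ {p | ∃ s ∈ rep Mv t L n p, s0 ≤ s ∧ s ≤ s0 + R}) := by
  by_cases hex : ∃ p, ∃ s ∈ rep Mv t L n p, s0 ≤ s ∧ s ≤ s0 + R
  · obtain ⟨p0, s1, ⟨k, -, hk⟩, h1, h2⟩ := hex
    refine (h.good (s0 - (t + k * L))).mono ?_
    rintro p (hp | ⟨s, ⟨j, -, hj⟩, h3, h4⟩)
    · exact Or.inl hp
    · have a1 := h.supp _ _ hk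
      have a2 := h.supp _ _ hj
      have hjk : j = k := by
        rcases lt_trichotomy j k with hlt | heq | hlt
        · have : (j : ℝ) + 1 ≤ k := by exact_mod_cast hlt
          nlinarith [a1.1, a2.2.1]
        · exact heq
        · have : (k : ℝ) + 1 ≤ j := by exact_mod_cast hlt
          nlinarith [a1.2.1, a2.1]
      subst hjk
      exact Or.inr ⟨_, hj, by linarith, by linarith⟩
  · refine (h.good 0).mono ?_
    rintro p (hp | hp)
    · exact Or.inl hp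
    · exact absurd ⟨p, hp⟩ hex

theorem RW.leaf {D : ℝ} (hD : 1 ≤ D) {S : Set H} {𝓕 : Set (H → E)} (hS : S.Finite)
    (hg : Good S) (h : ∀ G ∈ 𝓕, ¬ BiLip (2 * D) G S) : RW D S 𝓕 := by
  obtain ⟨σ, hσ, hsep⟩ := exists_sep_of_finite hS
  refine ⟨∅, Set.finite_empty, fun R _ => ⟨σ / (4 * D), 1, 1, by positivity, one_pos, one_pos,
    fun _ => ∅, ⟨fun _ => isClosed_empty, by simp, fun s0 => by simpa using hg⟩, ?_⟩⟩
  intro f lam v _ _ _ hA _ G hG
  by_contra hc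
  push Not at hc
  apply h G hG
  intro p hp q hq
  by_cases hpq : p = q
  · subst hpq; simp
  have h1 := hA.bil 0 p (Or.inl ⟨le_rfl, zero_le_one, hp⟩) q (Or.inl ⟨le_rfl, zero_le_one, hq⟩)
  have h2 := hsep p hp q hq hpq
  have e : (f 0 p - f 0 q) - (G p - G q) =
      ((f 0 p - f 0 0) - (G p - G 0)) - ((f 0 q - f 0 0) - (G q - G 0)) := by abel
  have h3 : ‖(f 0 p - f 0 q) - (G p - G q)‖ ≤ σ / (2 * D) := by
    rw [e]
    have := norm_sub_le ((f 0 p - f 0 0) - (G p - G 0)) ((f 0 q - f 0 0) - (G q - G 0))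
    have e2 : σ / (2 * D) = σ / (4 * D) + σ / (4 * D) := by field_simp; ring
    linarith [hc p hp, hc q hq]
  have h4 := abs_le.1 ((abs_norm_sub_norm_le _ _).trans h3)
  have h5 : D * (σ / (2 * D)) = σ / 2 := by field_simp
  have h6 : σ / (2 * D) ≤ σ := div_le_self hσ.le (by linarith)
  have h7 := norm_nonneg (G p - G q)
  constructor
  · nlinarith [h1.1, h4.2]
  · nlinarith [h1.2, h4.1]

theorem RW.mono {D : ℝ} {S : Set H} {𝓕 𝓕' : Set (H → E)} (h : RW D S 𝓕') (h' : 𝓕 ⊆ 𝓕') :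
    RW D S 𝓕 := by
  obtain ⟨U, hU, h⟩ := h
  refine ⟨U, hU, fun R hR => ?_⟩
  obtain ⟨η, L, δ, hη, hL, hδ, Mv, hM, hF⟩ := h R hR
  exact ⟨η, L, δ, hη, hL, hδ, Mv, hM, fun f lam v a b c d e G hG => hF f lam v a b c d e G (h' hG)⟩

theorem exists_delta {D L η δ1 δ2 : ℝ} (hD : 1 ≤ D) (hL : 0 < L) (hη : 0 < η) (h1 : 0 < δ1)
    (h2 : 0 < δ2) : ∃ δ : ℝ, 0 < δ ∧ δ ≤ δ1 ∧ δ ≤ δ2 ∧ 32 * D * L * δ ≤ η ^ 2 := by
  refine ⟨min (min δ1 δ2) (η ^ 2 / (32 * D * L)), by positivity,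
    (min_le_left _ _).trans (min_le_left _ _), (min_le_left _ _).trans (min_le_right _ _), ?_⟩
  have hp : 0 < 32 * D * L := by positivity
  calc 32 * D * L * min (min δ1 δ2) (η ^ 2 / (32 * D * L))
      ≤ 32 * D * L * (η ^ 2 / (32 * D * L)) := mul_le_mul_of_nonneg_left (min_le_right _ _) hp.le
    _ = η ^ 2 := by field_simp

theorem RW.union {D : ℝ} (hD : 1 ≤ D) {S : Set H} (h0 : (0 : H) ∈ S) {𝓕 𝓕' : Set (H → E)}
    (h : RW D S 𝓕) (h' : RW D S 𝓕') : RW D S (𝓕 ∪ 𝓕') := by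
  obtain ⟨U, hU, h⟩ := h
  obtain ⟨U', hU', h'⟩ := h'
  refine ⟨U ∪ U', hU.union hU', fun R hR => ?_⟩
  obtain ⟨η, L, δ, hη, hL, hδ, Mv, hM, hF⟩ := h R hR
  obtain ⟨η', L', δ', hη', hL', hδ', Mv', hM', hF'⟩ := h' R hR
  obtain ⟨δ0, hδ0, hδ1, hδ2, hδ3⟩ := exists_delta hD (add_pos hL hL') hη' hδ hδ'
  refine ⟨min η (η' / 2), L + L', δ0, by positivity, by positivity, hδ0,
    fun p => Mv p ∪ (fun s => s - L) ⁻¹' Mv' p, ⟨?_, ?_, ?_⟩, ?_⟩
  · exact fun p => (hM.closed p).union ((hM'.closed p).preimage (by fun_prop))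
  · rintro p s (hs | hs)
    · have := hM.supp p s hs
      exact ⟨this.1, by linarith [this.2.1], Or.inl this.2.2⟩
    · have := hM'.supp p _ hs
      exact ⟨by linarith [this.1], by linarith [this.2.1], Or.inr this.2.2⟩
  · intro s0
    by_cases hs0 : s0 ≤ L - R
    · refine (hM.good s0).mono ?_
      rintro p (hp | ⟨s, hs | hs, h1, h2⟩)
      · exact Or.inl hp
      · exact Or.inr ⟨s, hs, h1, h2⟩
      · have := hM'.supp p _ hs
        linarith [this.1]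
    · refine (hM'.good (s0 - L)).mono ?_
      rintro p (hp | ⟨s, hs | hs, h1, h2⟩)
      · exact Or.inl hp
      · have := hM.supp p _ hs
        linarith [this.2.1]
      · exact Or.inr ⟨s - L, hs, by linarith, by linarith⟩
  · intro f lam v hv hl0 hl hA hd G hG
    have hroot : ∀ p ∈ S, ∀ s, 0 ≤ s → s ≤ L + L' →
        InM S (L + L') (fun p => Mv p ∪ (fun s => s - L) ⁻¹' Mv' p) s p :=
      fun p hp s h1 h2 => Or.inl ⟨h1, h2, hp⟩
    rcases hG with hG | hG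
    · have hA1 := hA.shift (I' := InM S L Mv) 0 (by
        rintro s p (⟨h1, h2, h3⟩ | h1)
        · exact Or.inl ⟨by linarith, by linarith, h3⟩
        · exact Or.inr (Or.inl (by simpa using h1)))
      obtain ⟨p, hp, h1⟩ := hF _ lam v hv hl0 hl hA1 (fun p hp => by
        have := hA.sub_defect hv le_rfl hL.le (by linarith : L ≤ L + L') (hroot p hp)
          (δ := δ0) (by simpa using hd p hp)
        simp only [add_zero, sub_zero] at this ⊢
        linarith) G hG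
      simp only [add_zero] at h1
      exact ⟨p, hp, (min_le_left _ _).trans_lt h1⟩
    · have hA1 := hA.shift (I' := InM S L' Mv') L (by
        rintro s p (⟨h1, h2, h3⟩ | h1)
        · exact Or.inl ⟨by linarith, by linarith, h3⟩
        · exact Or.inr (Or.inr (by simpa using h1)))
      obtain ⟨p, hp, h1⟩ := hF' _ lam v hv hl0 hl hA1 (fun p hp => by
        have := hA.sub_defect hv hL.le (by linarith : L ≤ L + L') le_rfl (hroot p hp)
          (δ := δ0) (by simpa using hd p hp)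
        simp only [zero_add, add_sub_cancel_left] at this ⊢
        rw [add_comm L' L]
        linarith) G hG
      simp only [zero_add] at h1
      have h2 := hA.drift hl0 hl hv hL.le (by linarith : L ≤ L + L') hδ0.le hη' (hroot p hp)
        (hroot 0 h0) (hd p hp) (hd 0 h0) hδ3
      refine ⟨p, hp, (min_le_right _ _).trans_lt ?_⟩
      have h3 := norm_sub_le_norm_sub_add_norm_sub (f L p - f L 0) (f 0 p - f 0 0) (G p - G 0)
      linarith

theorem RW.ext {D : ℝ} (hD : 1 ≤ D) {S S' : Set H} (h0 : (0 : H) ∈ S) (hSS : S ⊆ S')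
    (hS' : S'.Finite) {𝓕 𝓕' : Set (H → E)} (h : RW D S' 𝓕')
    (hF : ∀ G ∈ 𝓕, ∀ G' : H → E, Set.EqOn G G' S → G' ∈ 𝓕') : RW D S 𝓕 := by
  classical
  obtain ⟨U, hU, h⟩ := h
  refine ⟨S' ∪ U, hS'.union hU, fun R hR => ?_⟩
  obtain ⟨η, L, δ, hη, hL, hδ, Mv, hM, hFo⟩ := h R hR
  obtain ⟨ν, hν, hνS⟩ := exists_bound_of_finite hS'
  obtain ⟨n, hn⟩ := exists_nat_ge (hS'.toFinset.card * (1 + 2 * D * ν) / δ + 1)
  have hn0 : (0 : ℝ) < n := by
    have : 0 ≤ hS'.toFinset.card * (1 + 2 * D * ν) / δ := by positivity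
    linarith
  have hn1 : hS'.toFinset.card * (1 + 2 * D * ν) ≤ n * δ := by
    rw [← div_le_iff₀ hδ]; linarith
  have hL0 : 0 < n * L + 2 * R := by positivity
  obtain ⟨δ0, hδ0, hδ1, -, hδ3⟩ := exists_delta hD hL0 hη one_pos one_pos
  set Mw : H → Set ℝ := fun p => {s | p ∈ S' ∧ R ≤ s ∧ s ≤ R + n * L} ∪ rep Mv R L n p with hMw
  refine ⟨η / 2, n * L + 2 * R, δ0, by positivity, hL0, hδ0, Mw, ⟨?_, ?_, ?_⟩, ?_⟩
  · intro p
    refine IsClosed.union ?_ (hM.rep_closed R n p)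
    by_cases hp : p ∈ S'
    · simp only [hp, true_and]; exact isClosed_Icc
    · simp [hp]
  · rintro p s (⟨h1, h2, h3⟩ | ⟨k, hk, h1⟩)
    · exact ⟨h2, by linarith, Or.inl h1⟩
    · have := hM.supp p _ h1
      have hk' : (k : ℝ) + 1 ≤ n := by exact_mod_cast hk
      have hk0 : (0 : ℝ) ≤ k := k.cast_nonneg
      exact ⟨by nlinarith [this.1], by nlinarith [this.2.1], Or.inr this.2.2⟩
  · intro s0
    refine (hM.rep_good hR hL R n s0).mono ?_
    rintro p (hp | ⟨s, hs | hs, h1, h2⟩)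
    · exact Or.inl (hSS hp)
    · exact Or.inl hs.1
    · exact Or.inr ⟨s, hs, h1, h2⟩
  · intro f lam v hv hl0 hl hA hd G hG
    have hroot : ∀ p ∈ S, ∀ s, 0 ≤ s → s ≤ n * L + 2 * R → InM S (n * L + 2 * R) Mw s p :=
      fun p hp s h1 h2 => Or.inl ⟨h1, h2, hp⟩
    have hnew : ∀ p ∈ S', ∀ s, R ≤ s → s ≤ R + n * L → InM S (n * L + 2 * R) Mw s p :=
      fun p hp s h1 h2 => Or.inr (Or.inl ⟨hp, h1, h2⟩)
    have hnL : 0 ≤ n * L := by positivity
    -- deficiency of the new lines over the whole window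
    have hdef : ∀ p ∈ S', lam * (n * L) - (1 + 2 * D * ν) ≤ ⟪f (R + n * L) p - f R p, v⟫ := by
      intro p hp
      have e1 := hA.sub_defect hv hR.le (by linarith : R ≤ R + n * L)
        (by linarith : R + n * L ≤ n * L + 2 * R) (hroot 0 h0) (δ := δ0) (by simpa using hd 0 h0)
      have e2 : ∀ s, R ≤ s → s ≤ R + n * L → |⟪f s p - f s 0, v⟫| ≤ D * ν := by
        intro s h1 h2
        have a1 := (hA.bil s p (hnew p hp s h1 h2) 0 (hnew 0 (hSS h0) s h1 h2)).2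
        have a2 := abs_real_inner_le_norm (f s p - f s 0) v
        rw [hv, mul_one] at a2
        rw [sub_zero] at a1
        have a3 : D * ‖p‖ ≤ D * ν := mul_le_mul_of_nonneg_left (hνS p hp) (by linarith)
        linarith
      have e3 := abs_le.1 (e2 R le_rfl (by linarith))
      have e4 := abs_le.1 (e2 (R + n * L) (by linarith) le_rfl)
      simp only [inner_sub_left, add_sub_cancel_left] at *
      linarith [e3.2, e4.1]
    obtain ⟨j, hj, hjd⟩ := exists_step_le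
      (fun j : ℕ => ∑ p ∈ hS'.toFinset, (lam * (j * L) - ⟪f (R + j * L) p, v⟫)) n
      (by exact_mod_cast hn0) δ (by
        rw [← Finset.sum_sub_distrib]
        refine le_trans (Finset.sum_le_card_nsmul _ _ (1 + 2 * D * ν) ?_)
          (by rw [nsmul_eq_mul]; exact hn1)
        intro p hp
        have := hdef p (by simpa using hp)
        simp only [inner_sub_left, Nat.cast_zero, zero_mul, add_zero] at *
        linarith)
    have hj' : (j : ℝ) + 1 ≤ n := by exact_mod_cast hj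
    have hj0 : (0 : ℝ) ≤ j := j.cast_nonneg
    have hjL : (j + 1) * L ≤ n * L := mul_le_mul_of_nonneg_right hj' hL.le
    have hjL0 : 0 ≤ j * L := by positivity
    have hA1 := hA.shift (I' := InM S' L Mv) (R + j * L) (by
      rintro s p (⟨h1, h2, h3⟩ | h1)
      · exact hnew p h3 _ (by linarith) (by linarith)
      · exact Or.inr (Or.inr ⟨j, hj, by simpa using h1⟩))
    rw [← Finset.sum_sub_distrib] at hjd
    have hblock : ∀ p ∈ S', lam * L - δ ≤ ⟪f (L + (R + j * L)) p - f (0 + (R + j * L)) p, v⟫ := by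
      intro p hp
      have e1 := (Finset.single_le_sum (f := fun p => (lam * (((j + 1 : ℕ) : ℝ) * L) -
          ⟪f (R + ((j + 1 : ℕ) : ℝ) * L) p, v⟫) - (lam * (j * L) - ⟪f (R + j * L) p, v⟫))
        (fun q hq => ?_) (hS'.mem_toFinset.2 hp)).trans hjd
      · have e2 : L + (R + j * L) = R + ((j + 1 : ℕ) : ℝ) * L := by push_cast; ring
        rw [e2, zero_add, inner_sub_left]
        push_cast at e1 ⊢
        linarith
      · have e2 := hA.defect hv (p := q) (a := R + j * L) (b := R + ((j + 1 : ℕ) : ℝ) * L)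
          (by push_cast; linarith) (fun s h1 h2 => hnew q (by simpa using hq) s (by linarith)
            (by push_cast at h2; linarith))
        rw [inner_sub_left] at e2
        push_cast at e2 ⊢
        linarith
    set t := R + j * L with ht
    obtain ⟨p, hp, h1⟩ := hFo _ lam v hv hl0 hl hA1 hblock
      (fun p => if p ∈ S then G p else G 0 + (f t p - f t 0))
      (hF G hG _ (fun p hp => by simp [hp]))
    simp only [zero_add, h0, if_true] at h1
    by_cases hpS : p ∈ S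
    · simp only [hpS, if_true] at h1
      have h2 := hA.drift hl0 hl hv (t := t) (by linarith) (by linarith) hδ0.le hη (hroot p hpS)
        (hroot 0 h0) (hd p hpS) (hd 0 h0) hδ3
      refine ⟨p, hpS, ?_⟩
      have h3 := norm_sub_le_norm_sub_add_norm_sub (f t p - f t 0) (f 0 p - f 0 0) (G p - G 0)
      linarith
    · simp only [hpS, if_false, add_sub_cancel_left, sub_self, norm_zero] at h1
      linarith

theorem Win.rw {D : ℝ} (hD : 1 ≤ D) {S : Set H} {𝓕 : Set (H → E)} (h : Win (2 * D) S 𝓕) :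
    RW D S 𝓕 := by
  induction h with
  | leaf h1 _ h3 h4 => exact RW.leaf hD h1 h3 h4
  | mono _ h2 ih => exact ih.mono h2
  | union h1 _ ih ih' => exact ih.union hD h1.zero_mem ih'
  | ext h1 h2 h3 h4 ih => exact ih.ext hD h1 h2 h3.finite h4

end Crest.Agent.R254
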