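import Crest.Agent.R254.Game
import Crest.Agent.R254.Movie
import Crest.Agent.Lib.Dvoretzky.Main

/-!
One stage of the construction: a movie with labels in the kernel of a functional on `B`
which cannot be placed in `ℝ^d` with distortion `D` near an extremal line.
-/

set_option autoImplicit false
set_option linter.unusedSectionVars false

namespace Crest.Agent.R254

open scoped RealInnerProductSpace

theorem fresh_of_not_finite {H : Type*} [NormedAddCommGroup H] [InnerProductSpace ℝ H]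
    (h : ¬ FiniteDimensional ℝ H) : Fresh H := by
  intro S hS
  have : FiniteDimensional ℝ (Submodule.span ℝ S) := FiniteDimensional.span_of_finite ℝ hS
  have hne : (Submodule.span ℝ S)ᗮ ≠ ⊥ := by
    intro hb
    rw [Submodule.orthogonal_eq_bot_iff] at hb
    apply h
    have : FiniteDimensional ℝ (⊤ : Submodule ℝ H) := hb ▸ inferInstance
    exact Module.Finite.of_surjective (⊤ : Submodule ℝ H).subtype fun x => ⟨⟨x, trivial⟩, rfl⟩
  obtain ⟨x, hx, hx0⟩ := Submodule.exists_mem_ne_zero_of_ne_bot hne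
  refine ⟨‖x‖⁻¹ • x, norm_smul_inv_norm hx0, fun s hs => ?_⟩
  rw [inner_smul_left, real_inner_comm,
    (Submodule.mem_orthogonal _ _).1 hx s (Submodule.subset_span hs), mul_zero]

theorem not_finite_l2 : ¬ FiniteDimensional ℝ (lp (fun _ : ℕ => ℝ) 2) := by
  intro h
  have h1 : Orthonormal ℝ (fun i : ℕ => lp.single (E := fun _ : ℕ => ℝ) 2 i (1 : ℝ)) := by
    rw [orthonormal_iff_ite]
    intro i j
    rw [lp.inner_single_left]
    by_cases hij : i = j
    · subst hij; simp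
    · simp [hij]
  exact Module.Finite.not_linearIndependent_of_infinite _ h1.linearIndependent

theorem win_euclid (D : ℝ) (hD : 0 < D) (d : ℕ) :
    Win D ({0} : Set (lp (fun _ : ℕ => ℝ) 2))
      (Set.univ : Set (lp (fun _ : ℕ => ℝ) 2 → EuclideanSpace ℝ (Fin d))) := by
  refine win_top (fresh_of_not_finite not_finite_l2) (K := d + 1) (d := d)
    (φ := fun k a => if h : k < d then a ⟨k, h⟩ else 0) hD (by positivity) ?_ ?_
  · intro k a b
    by_cases h : k < d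
    · simp only [h, dif_pos]
      exact PiLp.norm_apply_le (a - b) ⟨k, h⟩
    · simp [h]
  · intro a b hab
    have hne : Nonempty (Fin d) := by
      by_contra hn
      rw [not_nonempty_iff] at hn
      exact hab (Subsingleton.elim _ _)
    obtain ⟨j, -, hj⟩ := Finset.univ.exists_max_image (fun j : Fin d => |a j - b j|)
      Finset.univ_nonempty
    refine ⟨j, j.2, ?_⟩
    simp only [j.2, dif_pos, Fin.eta]
    apply abs_le_of_sq_le_sq' _ (by positivity) |>.2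
    rw [EuclideanSpace.real_norm_sq_eq]
    have h1 : ∑ i : Fin d, (a - b) i ^ 2 ≤ (Finset.univ : Finset (Fin d)).card • |a j - b j| ^ 2 := by
      apply Finset.sum_le_card_nsmul
      intro i _
      rw [← sq_abs]
      exact pow_le_pow_left₀ (abs_nonneg _) (hj i (Finset.mem_univ _)) 2
    rw [Finset.card_univ, Fintype.card_fin, nsmul_eq_mul] at h1
    have h2 : (0 : ℝ) ≤ d := d.cast_nonneg
    nlinarith [sq_nonneg |a j - b j|, mul_nonneg (mul_nonneg h2 h2) (sq_nonneg |a j - b j|)]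

variable {B : Type*} [NormedAddCommGroup B] [NormedSpace ℝ B]

theorem exists_transfer {H : Type*} [NormedAddCommGroup H] [InnerProductSpace ℝ H]
    (W : Submodule ℝ B) (hW : ¬ FiniteDimensional ℝ W) {U : Set H} (hU : U.Finite) :
    ∃ τ : H → B, τ 0 = 0 ∧ (∀ p, τ p ∈ W) ∧ ∀ p ∈ insert 0 U, ∀ q ∈ insert 0 U,
      ‖p - q‖ ≤ 3 * ‖τ p - τ q‖ ∧ ‖τ p - τ q‖ ≤ ‖p - q‖ := by
  classical
  set V := Submodule.span ℝ U
  have : FiniteDimensional ℝ V := FiniteDimensional.span_of_finite ℝ hU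
  obtain ⟨T, hT⟩ := Lib.Dvoretzky.dvoretzky hW (Module.finrank ℝ V)
  let e := (stdOrthonormalBasis ℝ V).repr
  refine ⟨fun p => if h : p ∈ V then (T (e ⟨p, h⟩) : B) else 0, ?_, ?_, ?_⟩
  · simp only [V.zero_mem, dif_pos]
    have : (⟨0, V.zero_mem⟩ : V) = 0 := rfl
    rw [this, map_zero, map_zero]; rfl
  · intro p
    by_cases h : p ∈ V
    · simp only [h, dif_pos]; exact Subtype.mem _
    · simp only [h, dif_neg, not_false_iff]; exact W.zero_mem
  · have hV : ∀ p ∈ insert 0 U, p ∈ V := by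
      rintro p (rfl | hp)
      · exact V.zero_mem
      · exact Submodule.subset_span hp
    intro p hp q hq
    simp only [hV p hp, hV q hq, dif_pos]
    have h1 := hT (e ⟨p, hV p hp⟩ - e ⟨q, hV q hq⟩)
    have h2 : ‖e ⟨p, hV p hp⟩ - e ⟨q, hV q hq⟩‖ = ‖p - q‖ := by
      rw [← map_sub, e.norm_map]; rfl
    rw [h2, map_sub] at h1
    exact h1

/-- Few quasi-equilateral points (ratio `10`). -/
def GoodB (X : Set B) : Prop :=
  ∀ r : ℝ, 0 < r → ∀ Q : Finset B, ↑Q ⊆ X → Sep Q r → (∀ p ∈ Q, ∀ q ∈ Q, ‖p - q‖ ≤ 10 * r) →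
    (Q.card : ℝ) ≤ Λ0 + 1

/-- Geometry of a stage. -/
structure StageG (W : Submodule ℝ B) (U : Set B) (ν σ L : ℝ) (Mv : B → Set ℝ) : Prop where
  fin : U.Finite
  zero : (0 : B) ∈ U
  ker : ∀ p ∈ U, p ∈ W
  ν_pos : 0 < ν
  σ_pos : 0 < σ
  L_pos : 0 < L
  bd : ∀ p ∈ U, ‖p‖ ≤ ν
  sep : ∀ p ∈ U, ∀ q ∈ U, p ≠ q → σ ≤ ‖p - q‖
  closed : ∀ n p, IsClosed (rep Mv 0 L n p)
  supp : ∀ p, ∀ s ∈ Mv p, 0 ≤ s ∧ s ≤ L ∧ p ∈ U
  good : ∀ n s0, GoodB ({0} ∪ {p | ∃ s ∈ rep Mv 0 L n p, s0 ≤ s ∧ s ≤ s0 + ν})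

/-- The stage cannot be placed in `ℝ^d` along a nearly extremal line. -/
def Kills (D : ℝ) (d : ℕ) (κ L : ℝ) (Mv : B → Set ℝ) : Prop :=
  ∀ (f : ℝ → B → EuclideanSpace ℝ (Fin d)) (lam : ℝ) (v : EuclideanSpace ℝ (Fin d)), ‖v‖ = 1 →
    0 ≤ lam → lam ≤ D → Adm D (InM {0} L Mv) f lam → lam * L - κ * L ≤ ⟪f L 0 - f 0 0, v⟫ → False

theorem exists_stage (W : Submodule ℝ B) (hW : ¬ FiniteDimensional ℝ W) (D : ℝ) (hD : 1 ≤ D)
    (d : ℕ) : ∃ (U : Set B) (ν σ L κ : ℝ) (Mv : B → Set ℝ), StageG W U ν σ L Mv ∧ 0 < κ ∧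
      Kills D d κ L Mv := by
  classical
  obtain ⟨U, hU, h⟩ := (win_euclid (2 * (3 * D)) (by positivity) d).rw (by linarith)
  obtain ⟨τ, hτ0, hτW, hτ⟩ := exists_transfer W hW hU
  obtain ⟨ν, hν, hνU⟩ := exists_bound_of_finite (hU.insert 0)
  obtain ⟨η, L, δ, hη, hL, hδ, Mv, hM, hF⟩ := h ν hν
  obtain ⟨σ, hσ, hsep⟩ := exists_sep_of_finite ((hU.insert 0).image τ)
  refine ⟨τ '' insert 0 U, ν, σ, L, δ / L, fun q => {s | ∃ p, τ p = q ∧ s ∈ Mv p},
    ⟨(hU.insert 0).image τ, ⟨0, Or.inl rfl, hτ0⟩, ?_, hν, hσ, hL, ?_, hsep, ?_, ?_, ?_⟩,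
    by positivity, ?_⟩
  · rintro _ ⟨p, -, rfl⟩; exact hτW p
  · rintro _ ⟨p, hp, rfl⟩
    have := (hτ p hp 0 (Or.inl rfl)).2
    rw [hτ0, sub_zero, sub_zero] at this
    exact this.trans (hνU p hp)
  · intro n q
    have : rep (fun q => {s | ∃ p, τ p = q ∧ s ∈ Mv p}) 0 L n q =
        ⋃ p ∈ {p ∈ U | τ p = q}, rep Mv 0 L n p := by
      ext s
      simp only [rep, Set.mem_ofPred_eq, Set.mem_iUnion]
      constructor
      · rintro ⟨k, hk, p, hp, hs⟩
        exact ⟨p, ⟨(hM.supp p _ hs).2.2, hp⟩, k, hk, hs⟩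
      · rintro ⟨p, ⟨-, hp⟩, k, hk, hs⟩
        exact ⟨k, hk, p, hp, hs⟩
    rw [this]
    exact (hU.subset fun p hp => hp.1).isClosed_biUnion fun p _ => hM.rep_closed 0 n p
  · rintro q s ⟨p, rfl, hs⟩
    have := hM.supp p s hs
    exact ⟨by linarith [this.1], by linarith [this.2.1], p, Or.inr this.2.2, rfl⟩
  · intro n s0 r hr Q hQ hs hd
    have hex : ∀ q : B, ∃ p, q ∈ Q → τ p = q ∧ p ∈ insert 0 U ∧
        p ∈ {0} ∪ {p | ∃ s ∈ rep Mv 0 L n p, s0 ≤ s ∧ s ≤ s0 + ν} := by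
      intro q
      by_cases hq : q ∈ Q
      · rcases hQ hq with h0 | ⟨s, ⟨k, hk, p, hp, hs⟩, h1⟩
        · exact ⟨0, fun _ => ⟨hτ0.trans h0.symm, Or.inl rfl, Or.inl rfl⟩⟩
        · exact ⟨p, fun _ => ⟨hp, Or.inr (hM.supp p _ hs).2.2, Or.inr ⟨s, ⟨k, hk, hs⟩, h1⟩⟩⟩
      · exact ⟨0, fun h => absurd h hq⟩
    choose g hg using hex
    have hinj : Set.InjOn g Q := fun p hp q hq h => by
      rw [← (hg p hp).1, ← (hg q hq).1, h]
    rw [← Finset.card_image_of_injOn hinj]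
    refine hM.rep_good hν hL 0 n s0 r hr (Q.image g) ?_ ?_ ?_
    · intro p hp
      obtain ⟨q, hq, rfl⟩ := Finset.mem_image.1 hp
      exact (hg q hq).2.2
    · intro p hp p' hp' hne
      obtain ⟨q, hq, rfl⟩ := Finset.mem_image.1 hp
      obtain ⟨q', hq', rfl⟩ := Finset.mem_image.1 hp'
      have h1 := (hτ _ (hg q hq).2.1 _ (hg q' hq').2.1).2
      rw [(hg q hq).1, (hg q' hq').1] at h1
      exact (hs q hq q' hq' fun h => hne (h ▸ rfl)).trans_le h1
    · intro p hp p' hp'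
      obtain ⟨q, hq, rfl⟩ := Finset.mem_image.1 hp
      obtain ⟨q', hq', rfl⟩ := Finset.mem_image.1 hp'
      have h1 := (hτ _ (hg q hq).2.1 _ (hg q' hq').2.1).1
      rw [(hg q hq).1, (hg q' hq').1] at h1
      linarith [hd q hq q' hq']
  · intro f lam v hv hl0 hl hA hd
    have hI : ∀ s p, InM {0} L Mv s p →
        InM {0} L (fun q => {s | ∃ p, τ p = q ∧ s ∈ Mv p}) s (τ p) ∧ p ∈ insert 0 U := by
      rintro s p (⟨h1, h2, h3⟩ | h1)
      · rw [Set.mem_singleton_iff] at h3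
        subst h3
        exact ⟨Or.inl ⟨h1, h2, hτ0⟩, Or.inl rfl⟩
      · exact ⟨Or.inr ⟨p, rfl, h1⟩, Or.inr (hM.supp p s h1).2.2⟩
    refine absurd (hF (fun s p => f s (τ p)) lam v hv hl0 (by linarith) ⟨?_, ?_⟩ ?_
      (fun p => f 0 (τ p)) trivial) ?_
    rotate_right
    · rintro ⟨p, -, hp⟩
      simp only [sub_self, norm_zero] at hp
      linarith
    · intro s p hp q hq
      have h1 := hA.bil s _ (hI s p hp).1 _ (hI s q hq).1
      have h2 := hτ p (hI s p hp).2 q (hI s q hq).2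
      have h3 := norm_nonneg (p - q)
      constructor
      · linarith [h1.1, h2.1]
      · nlinarith [h1.2, h2.2]
    · intro p a b hab hs
      exact hA.lip _ a b hab fun s h1 h2 => (hI s p (hs s h1 h2)).1
    · intro p hp
      rw [Set.mem_singleton_iff] at hp
      subst hp
      rw [div_mul_cancel₀ _ hL.ne'] at hd
      simpa only [hτ0] using hd

end Crest.Agent.R254
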