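import Crest.Agent.R254.Geom

/-!
The step lemma: after an event at the last point `x` of a cluster `X`, a ray of points is added and
play continues on a piece of the ray (or on the remaining far piece).
-/

set_option autoImplicit false
set_option linter.unusedSectionVars false

namespace Crest.Agent.R254

open scoped RealInnerProductSpace

variable {H : Type*} [NormedAddCommGroup H] [InnerProductSpace ℝ H]

theorem pyth {p q x : H} (h : ⟪q - x, p - x⟫ = 0) :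
    ‖p - q‖ ^ 2 = ‖p - x‖ ^ 2 + ‖q - x‖ ^ 2 := by
  have e : p - q = (p - x) - (q - x) := by abel
  rw [e, norm_sub_sq_real, real_inner_comm, h]; ring

/-- Direction of an edge, normalised to unit time speed. -/
noncomputable def dir (A B : H) (ℓ : ℝ) : H := ℓ⁻¹ • (B - A)

theorem Edge.dir_time {S : Set H} {A B u : H} {ℓ : ℝ} (e : Edge S A B u ℓ) :
    ⟪dir A B ℓ, u⟫ = 1 := by
  rw [dir, inner_smul_left, inner_sub_left, e.hℓ]
  simp [inv_mul_cancel₀ e.pos.ne']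

theorem Edge.dir_norm {S : Set H} {A B u : H} {ℓ : ℝ} (e : Edge S A B u ℓ) :
    ‖dir A B ℓ‖ ≤ 3 / 2 := by
  rw [dir, norm_smul, Real.norm_of_nonneg (inv_nonneg.2 e.pos.le), inv_mul_le_iff₀ e.pos]
  linarith [e.len]

theorem Edge.smul_dir {S : Set H} {A B u : H} {ℓ : ℝ} (e : Edge S A B u ℓ) :
    ℓ • dir A B ℓ = B - A := by
  rw [dir, smul_smul, mul_inv_cancel₀ e.pos.ne', one_smul]

theorem Edge.mid_eq {S : Set H} {A B u : H} {ℓ : ℝ} (e : Edge S A B u ℓ) :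
    mid A B = A + (ℓ / 2) • dir A B ℓ := by
  have h := e.smul_dir
  have : (ℓ / 2) • dir A B ℓ = (1 / 2 : ℝ) • (ℓ • dir A B ℓ) := by module
  rw [this, h, mid]; module

theorem Edge.B_eq {S : Set H} {A B u : H} {ℓ : ℝ} (e : Edge S A B u ℓ) :
    B = A + ℓ • dir A B ℓ := by
  rw [e.smul_dir]; abel

theorem Edge.dir_orth {S : Set H} {A B u : H} {ℓ : ℝ} (e : Edge S A B u ℓ) {ξ : H}
    (h : ∀ s ∈ S, ⟪ξ, s⟫ = 0) : ⟪ξ, dir A B ℓ⟫ = 0 := by
  rw [dir, inner_smul_right, inner_sub_right, h A e.hA, h B e.hB]; simp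

theorem Edge.step {S : Set H} {A B u : H} {ℓ : ℝ} (e : Edge S A B u ℓ) {γ c0 : ℝ}
    (hγ0 : 0 < γ) (hγ : γ ≤ 1 / 2048) {X : Set H} {x : H}
    (h : Cl S (mid A B) (γ * ℓ) c0 X x) {Ry : Set H} (hRf : Ry.Finite) {α β : H} {a b : ℝ}
    (ha : 0 ≤ a) (hβ : β = x - a • dir A B ℓ)
    (hcase : (α = x - b • dir A B ℓ ∧ a < b ∧ b ≤ ℓ / 4 ∧ (b ≤ 2 * a ∨ 640 * b ≤ c0 * (γ * ℓ))) ∨
      (α = A ∧ a = ℓ / 4 ∧ b = a))
    (hRy : ∀ y ∈ Ry, ∃ s : ℝ, y = x - s • dir A B ℓ ∧ 0 ≤ s ∧ (s ≤ a ∨ s = b))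
    {c' m : ℝ} (hc' : 0 ≤ c') (hm : m * ℓ ≤ ⟪β, u⟫ - ⟪α, u⟫) {Z : Set H} {z : H}
    (hP : Pl (S ∪ X ∪ Ry) α β u c' Z z) : Pl S A B u (c' * m) (X ∪ Ry ∪ Z) z := by
  classical
  have hu := e.hu
  have hℓ := e.hℓ
  have hpos := e.pos
  set w := dir A B ℓ with hw
  have hwt : ⟪w, u⟫ = 1 := e.dir_time
  have hwn : ‖w‖ ≤ 3 / 2 := e.dir_norm
  have hγℓ : γ * ℓ ≤ ℓ / 2048 := by nlinarith
  have hγℓ0 : 0 < γ * ℓ := mul_pos hγ0 hpos
  have hxt : ⟪x, u⟫ = ⟪A, u⟫ + ℓ / 2 := e.time_cl h h.mem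
  have hXt : ∀ p ∈ X, ⟪p, u⟫ = ⟪A, u⟫ + ℓ / 2 := fun p hp => e.time_cl h hp
  have hrt : ∀ s : ℝ, ⟪x - s • w, u⟫ = ⟪A, u⟫ + ℓ / 2 - s := by
    intro s; rw [inner_sub_left, inner_smul_left, hwt, hxt]; simp
  have hxb := h.bd x h.mem
  have hXd : ∀ p ∈ X, ∀ q ∈ X, ‖p - q‖ ≤ 4 * (γ * ℓ) := by
    intro p hp q hq
    have h1 := norm_sub_le_norm_sub_add_norm_sub p (mid A B) q
    rw [norm_sub_rev (mid A B) q] at h1
    linarith [h.bd p hp, h.bd q hq]
  have hsm : ∀ t : ℝ, 0 ≤ t → ‖t • w‖ ≤ 3 / 2 * t := by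
    intro t ht; rw [norm_smul, Real.norm_of_nonneg ht]; nlinarith
  have hrA : ∀ s : ℝ, s ≤ ℓ / 4 → ‖x - s • w - A‖ ≤ 2 * (ℓ / 2 - s) := by
    intro s hs
    have e1 : x - s • w - A = (x - mid A B) + (ℓ / 2 - s) • w := by
      rw [e.mid_eq, ← hw]; module
    rw [e1]
    have := norm_add_le (x - mid A B) ((ℓ / 2 - s) • w)
    have := hsm (ℓ / 2 - s) (by linarith)
    linarith
  have hrB : ∀ s : ℝ, 0 ≤ s → ‖x - s • w - B‖ ≤ 2 * (ℓ / 2 + s) := by
    intro s hs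
    have e1 : x - s • w - B = (x - mid A B) - (ℓ / 2 + s) • w := by
      have := e.B_eq
      rw [← hw] at this
      rw [e.mid_eq, ← hw]
      conv_lhs => rw [this]
      module
    rw [e1]
    have := norm_sub_le (x - mid A B) ((ℓ / 2 + s) • w)
    have := hsm (ℓ / 2 + s) (by linarith)
    linarith
  have hrr : ∀ s t : ℝ, ‖(x - s • w) - (x - t • w)‖ ≤ 3 / 2 * |s - t| := by
    intro s t
    have e1 : (x - s • w) - (x - t • w) = (t - s) • w := by module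
    rw [e1, norm_smul, Real.norm_eq_abs, abs_sub_comm]
    nlinarith [abs_nonneg (s - t)]
  have hro : ∀ s : ℝ, ∃ a' b' : ℝ, a' + b' = 1 ∧
      ∀ t ∈ S, ⟪x - s • w - (a' • A + b' • B), t⟫ = 0 := by
    intro s
    refine ⟨1 / 2 + s / ℓ, 1 / 2 - s / ℓ, by ring, fun t ht => ?_⟩
    have e1 : x - s • w - ((1 / 2 + s / ℓ) • A + (1 / 2 - s / ℓ) • B) = x - mid A B := by
      rw [hw, dir, mid, div_eq_mul_inv s ℓ]; module
    rw [e1]; exact h.orth x h.mem t ht
  have hab : a ≤ b := by rcases hcase with h1 | h1 <;> linarith [h1.2.1, h1.2.2]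
  have hb4 : b ≤ ℓ / 4 := by
    rcases hcase with h1 | h1
    · exact h1.2.2.1
    · linarith [h1.2.1, h1.2.2]
  have hβt : ⟪β, u⟫ = ⟪A, u⟫ + ℓ / 2 - a := by rw [hβ, hrt]
  have hαA : ⟪A, u⟫ ≤ ⟪α, u⟫ ∧ ‖α - A‖ ≤ 2 * (⟪α, u⟫ - ⟪A, u⟫) := by
    rcases hcase with h1 | h1
    · rw [h1.1, hrt]
      have := hrA b hb4
      constructor <;> linarith
    · rw [h1.1]; simp
  have hαo : ∃ a' b' : ℝ, a' + b' = 1 ∧ ∀ t ∈ S, ⟪α - (a' • A + b' • B), t⟫ = 0 := by
    rcases hcase with h1 | h1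
    · rw [h1.1]; exact hro b
    · exact ⟨1, 0, by ring, fun t _ => by rw [h1.1]; simp⟩
  have hZt : ∀ q ∈ Z, ⟪α, u⟫ ≤ ⟪q, u⟫ ∧ ⟪q, u⟫ ≤ ⟪β, u⟫ := by
    intro q hq
    have h1 := hP.lensA q hq
    have h2 := hP.lensB q hq
    constructor <;> linarith [norm_nonneg (q - α), norm_nonneg (q - β)]
  -- anchors
  let An : H → Prop := fun y => ∃ s : ℝ, y = x - s • w ∧ 0 ≤ s ∧ (s ≤ a ∨ s = b)
  have hxAn : An x := ⟨0, by simp, le_rfl, Or.inl ha⟩
  have hAnt : ∀ y, An y → ⟪y, u⟫ ≤ ⟪α, u⟫ ∨ ⟪β, u⟫ ≤ ⟪y, u⟫ := by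
    rintro y ⟨s, rfl, hs0, hs⟩
    rcases hs with hs | hs
    · right; rw [hβt, hrt]; linarith
    · rcases hcase with h1 | h1
      · left; rw [h1.1, hs]
      · right; rw [hβt, hrt]; linarith [h1.2.2]
  have hAnAn : ∀ p, An p → ∀ q, An q → ‖p - q‖ ≤ 2 * |⟪p, u⟫ - ⟪q, u⟫| := by
    rintro p ⟨s, rfl, -, -⟩ q ⟨t, rfl, -, -⟩
    have h1 := hrr s t
    rw [hrt, hrt]
    have e1 : ⟪A, u⟫ + ℓ / 2 - s - (⟪A, u⟫ + ℓ / 2 - t) = -(s - t) := by ring
    rw [e1, abs_neg]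
    linarith [abs_nonneg (s - t)]
  have hAnZ : ∀ p, An p → ∀ q ∈ Z, ‖p - q‖ ≤ 2 * |⟪p, u⟫ - ⟪q, u⟫| := by
    rintro p ⟨s, rfl, hs0, hs⟩ q hq
    have hsa : s ≤ a → ‖x - s • w - q‖ ≤ 2 * |⟪x - s • w, u⟫ - ⟪q, u⟫| := by
      intro hs
      have h1 := hrr s a
      rw [← hβ, abs_of_nonpos (by linarith)] at h1
      have h2 := hP.lensB q hq
      have h3 := norm_sub_le_norm_sub_add_norm_sub (x - s • w) β q
      rw [norm_sub_rev β q] at h3
      have h4 := le_abs_self (⟪x - s • w, u⟫ - ⟪q, u⟫)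
      have h5 := hrt s
      linarith
    rcases hs with hs | hs
    · exact hsa hs
    · rcases hcase with h1 | h1
      · rw [hs, ← h1.1, norm_sub_rev, abs_sub_comm]
        have h2 := hP.lensA q hq
        have h4 := le_abs_self (⟪q, u⟫ - ⟪α, u⟫)
        linarith
      · exact hsa (by linarith [h1.2.2])
  have hRyAn : ∀ y ∈ Ry, An y := hRy
  -- distance to `x`
  have hlx : ∀ q, q ∈ Ry ∨ q ∈ Z → ⟪A, u⟫ ≤ ⟪q, u⟫ ∧ ⟪q, u⟫ ≤ ⟪x, u⟫ ∧
      ‖x - q‖ ≤ 2 * (⟪x, u⟫ - ⟪q, u⟫) := by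
    intro q hq
    have h1 : ⟪A, u⟫ ≤ ⟪q, u⟫ ∧ ⟪q, u⟫ ≤ ⟪x, u⟫ := by
      rcases hq with hq | hq
      · obtain ⟨s, rfl, hs0, hs⟩ := hRy q hq
        rw [hrt, hxt]
        rcases hs with hs | hs <;> constructor <;> linarith
      · have := hZt q hq
        constructor <;> linarith [hαA.1]
    refine ⟨h1.1, h1.2, ?_⟩
    have h2 : ‖x - q‖ ≤ 2 * |⟪x, u⟫ - ⟪q, u⟫| := by
      rcases hq with hq | hq
      · exact hAnAn x hxAn q (hRyAn q hq)
      · exact hAnZ x hxAn q hq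
    rwa [abs_of_nonneg (by linarith [h1.2])] at h2
  -- orthogonality
  have hwX : ∀ p ∈ X, ⟪w, p - x⟫ = 0 := by
    intro p hp
    have e1 : p - x = (p - mid A B) - (x - mid A B) := by abel
    rw [real_inner_comm, e1, inner_sub_left, e.dir_orth (h.orth p hp),
      e.dir_orth (h.orth x h.mem), sub_zero]
  have hRo : ∀ q ∈ Ry, ∀ p ∈ X, ⟪q - x, p - x⟫ = 0 := by
    intro q hq p hp
    obtain ⟨s, rfl, -, -⟩ := hRy q hq
    have e1 : x - s • w - x = (-s) • w := by module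
    rw [e1, inner_smul_left, hwX p hp, mul_zero]
  have hZo : α = x - b • w → ∀ q ∈ Z, ∀ p ∈ X, ⟪q - x, p - x⟫ = 0 := by
    intro hα q hq p hp
    obtain ⟨a', b', hab', ho⟩ := hP.orth q hq
    have e1 : q - x = (q - (a' • α + b' • β)) - (a' * b + b' * a) • w := by
      rw [hα, hβ]
      have : a' = 1 - b' := by linarith
      subst this
      module
    rw [e1, inner_sub_left, inner_smul_left, hwX p hp, inner_sub_right,
      ho p (Or.inl (Or.inr hp)), ho x (Or.inl (Or.inr h.mem))]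
    simp
  -- line count
  have hline : ∀ r : ℝ, 0 < r → ∀ Q : Finset H, (↑Q : Set H) ⊆ X ∪ Ry ∪ Z → Sep Q r →
      (∀ p ∈ Q, ∀ q ∈ Q, ‖p - q‖ ≤ 64 * r) → ¬ ((↑Q : Set H) ⊆ Z) →
      (Q.filter (fun p => An p ∨ p ∈ Z)).card ≤ 385 := by
    intro r hr Q hQ hs hd hnot
    obtain ⟨q0, hq0, hq0Z⟩ := Set.not_subset.1 hnot
    have hq0' : ⟪q0, u⟫ ≤ ⟪α, u⟫ ∨ ⟪β, u⟫ ≤ ⟪q0, u⟫ := by
      rcases hQ hq0 with (h' | h') | h'
      · right; rw [hXt q0 h', hβt]; linarith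
      · exact hAnt q0 (hRyAn q0 h')
      · exact absurd h' hq0Z
    apply card_le_line hu hr _ (hs.mono (Finset.filter_subset _ _))
    · intro p hp q hq
      rw [Finset.mem_filter] at hp hq
      have hab := abs_nonneg (⟪p, u⟫ - ⟪q, u⟫)
      rcases hp.2 with hp' | hp' <;> rcases hq.2 with hq' | hq'
      · linarith [hAnAn p hp' q hq']
      · linarith [hAnZ p hp' q hq']
      · have := hAnZ q hq' p hp'
        rw [norm_sub_rev, abs_sub_comm] at this
        linarith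
      · exact hP.card_le hu q0 hq0' hp' hq' (hd p hp.1 q0 hq0)
    · intro p hp q hq
      rw [Finset.mem_filter] at hp hq
      exact hd p hp.1 q hq.1
  -- either few points, or two points of `X` different from `x`
  have hpoor : ∀ r : ℝ, 0 < r → ∀ Q : Finset H, (↑Q : Set H) ⊆ X ∪ Ry ∪ Z → Sep Q r →
      (∀ p ∈ Q, ∀ q ∈ Q, ‖p - q‖ ≤ 64 * r) → ¬ ((↑Q : Set H) ⊆ Z) →
      Q.card ≤ 402 ∨ (r < 4 * (γ * ℓ) ∧ ∃ p ∈ Q, p ∈ X ∧ p ≠ x) := by
    intro r hr Q hQ hs hd hnot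
    have h1 := hline r hr Q hQ hs hd hnot
    by_cases h2 : (Q.filter (fun p => ¬ (An p ∨ p ∈ Z))).card ≤ 1
    · left
      have := Finset.card_filter_add_card_filter_not (s := Q) (fun p => An p ∨ p ∈ Z)
      omega
    · right
      obtain ⟨p, hp, q, hq, hpq⟩ := Finset.one_lt_card.1 (not_le.1 h2)
      rw [Finset.mem_filter] at hp hq
      have hX : ∀ p ∈ Q, ¬ (An p ∨ p ∈ Z) → p ∈ X := by
        intro p hp hn
        rcases hQ hp with (h' | h') | h'
        · exact h'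
        · exact absurd (Or.inl (hRyAn p h')) hn
        · exact absurd (Or.inr h') hn
      refine ⟨(hs p hp.1 q hq.1 hpq).trans_le (hXd p (hX p hp.1 hp.2) q (hX q hq.1 hq.2)),
        p, hp.1, hX p hp.1 hp.2, ?_⟩
      rintro rfl
      exact hp.2 (Or.inl hxAn)
  have hsplit : ∀ Q : Finset H, (↑Q : Set H) ⊆ X ∪ Ry ∪ Z →
      (Q.filter (fun p => ¬ p ∈ X)) ⊆ Q.filter (fun p => An p ∨ p ∈ Z) := by
    intro Q hQ p hp
    rw [Finset.mem_filter] at hp ⊢
    refine ⟨hp.1, ?_⟩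
    rcases hQ hp.1 with (h' | h') | h'
    · exact absurd h' hp.2
    · exact Or.inl (hRyAn p h')
    · exact Or.inr h'
  have hlater : ∀ Q : Finset H, (↑Q : Set H) ⊆ X ∪ Ry ∪ Z → ∀ p ∈ Q, ¬ p ∈ X →
      p ∈ Ry ∨ p ∈ Z := by
    intro Q hQ p hp hn
    rcases hQ hp with (h' | h') | h'
    · exact absurd h' hn
    · exact Or.inl h'
    · exact Or.inr h'
  have hzt := hZt z hP.mem
  have hcm : c' * m * (⟪B, u⟫ - ⟪A, u⟫) ≤ c' * (⟪β, u⟫ - ⟪α, u⟫) := by
    rw [hℓ, mul_assoc]; exact mul_le_mul_of_nonneg_left hm hc'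
  refine ⟨(h.fin.union hRf).union hP.fin, Or.inr hP.mem, ?_, ?_, ?_, ?_, ?_, ?_, ?_, ?_, ?_⟩
  · -- orth
    intro p hp
    rcases hp with (hp | hp) | hp
    · exact ⟨1 / 2, 1 / 2, by norm_num, h.orth p hp⟩
    · obtain ⟨s, rfl, -, -⟩ := hRy p hp
      exact hro s
    · obtain ⟨a', b', hab', ho⟩ := hP.orth p hp
      obtain ⟨a1, b1, hab1, ho1⟩ := hαo
      obtain ⟨a2, b2, hab2, ho2⟩ := hro a
      rw [← hβ] at ho2
      refine ⟨a' * a1 + b' * a2, a' * b1 + b' * b2, by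
        have : a' * a1 + b' * a2 + (a' * b1 + b' * b2) = a' * (a1 + b1) + b' * (a2 + b2) := by
          ring
        rw [this, hab1, hab2]; linarith, fun t ht => ?_⟩
      have e1 : p - ((a' * a1 + b' * a2) • A + (a' * b1 + b' * b2) • B) =
          (p - (a' • α + b' • β)) + a' • (α - (a1 • A + b1 • B)) +
            b' • (β - (a2 • A + b2 • B)) := by module
      rw [e1, inner_add_left, inner_add_left, inner_smul_left, inner_smul_left,
        ho t (Or.inl (Or.inl ht)), ho1 t ht, ho2 t ht]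
      simp
  · -- lensA
    intro p hp
    rcases hp with (hp | hp) | hp
    · exact (e.base (c0 := c0) (c := min (c0 * γ) (1 / 2)) hγ (min_le_left _ _)
        (min_le_right _ _) h).lensA p hp
    · obtain ⟨s, rfl, hs0, hs⟩ := hRy p hp
      have := hrA s (by rcases hs with hs | hs <;> linarith)
      rw [hrt]; linarith
    · have h1 := hP.lensA p hp
      have h2 := norm_sub_le_norm_sub_add_norm_sub p α A
      linarith [hαA.2]
  · -- lensB
    intro p hp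
    rcases hp with (hp | hp) | hp
    · exact (e.base (c0 := c0) (c := min (c0 * γ) (1 / 2)) hγ (min_le_left _ _)
        (min_le_right _ _) h).lensB p hp
    · obtain ⟨s, rfl, hs0, hs⟩ := hRy p hp
      have := hrB s hs0
      rw [hrt]; linarith
    · have h1 := hP.lensB p hp
      have h2 := norm_sub_le_norm_sub_add_norm_sub p β B
      have h3 := hrB a ha
      rw [← hβ] at h3
      linarith
  · -- lin
    intro p hp q hq
    have hab := abs_nonneg (⟪p, u⟫ - ⟪q, u⟫)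
    by_cases hpX : p ∈ X
    · have hpt := hXt p hpX
      have h5 : min (⟪p, u⟫ - ⟪A, u⟫) (⟪B, u⟫ - ⟪p, u⟫) = ℓ / 2 := by
        have e1 : ⟪p, u⟫ - ⟪A, u⟫ = ℓ / 2 := by linarith
        have e2 : ⟪B, u⟫ - ⟪p, u⟫ = ℓ / 2 := by linarith
        rw [e1, e2, min_self]
      rw [h5]
      by_cases hqX : q ∈ X
      · linarith [hXd p hpX q hqX]
      · have hq' : q ∈ Ry ∨ q ∈ Z := by
          rcases hq with (h' | h') | h'
          · exact absurd h' hqX
          · exact Or.inl h'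
          · exact Or.inr h'
        have h1 := hlx q hq'
        have h2 := norm_sub_le_norm_sub_add_norm_sub p x q
        have h3 := hXd p hpX x h.mem
        have h4 := le_abs_self (⟪p, u⟫ - ⟪q, u⟫)
        linarith [h1.2.2]
    · have hp' : p ∈ Ry ∨ p ∈ Z := by
        rcases hp with (h' | h') | h'
        · exact absurd h' hpX
        · exact Or.inl h'
        · exact Or.inr h'
      have h1 := hlx p hp'
      have h5 : min (⟪p, u⟫ - ⟪A, u⟫) (⟪B, u⟫ - ⟪p, u⟫) = ⟪p, u⟫ - ⟪A, u⟫ := by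
        apply min_eq_left; linarith [h1.2.1]
      rw [h5]
      by_cases hqX : q ∈ X
      · have hqt := hXt q hqX
        have h2 := norm_sub_le_norm_sub_add_norm_sub p x q
        rw [norm_sub_rev p x] at h2
        have h3 := hXd x h.mem q hqX
        have h4 := neg_abs_le (⟪p, u⟫ - ⟪q, u⟫)
        by_cases h6 : ℓ / 4 ≤ ⟪p, u⟫ - ⟪A, u⟫
        · linarith [h1.2.2]
        · linarith [h1.2.2, h1.1]
      · have hq' : q ∈ Ry ∨ q ∈ Z := by
          rcases hq with (h' | h') | h'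
          · exact absurd h' hqX
          · exact Or.inl h'
          · exact Or.inr h'
        rcases hp' with hp' | hp' <;> rcases hq' with hq' | hq'
        · linarith [hAnAn p (hRyAn p hp') q (hRyAn q hq'), h1.1]
        · linarith [hAnZ p (hRyAn p hp') q hq', h1.1]
        · have := hAnZ q (hRyAn q hq') p hp'
          rw [norm_sub_rev, abs_sub_comm] at this
          linarith [h1.1]
        · have h2 := hP.lin p hp' q hq'
          have h3 := min_le_left (⟪p, u⟫ - ⟪α, u⟫) (⟪β, u⟫ - ⟪p, u⟫)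
          linarith [hαA.1]
  · -- G1
    intro r hr Q hQ hs hd
    by_cases hZ : (↑Q : Set H) ⊆ Z
    · exact hP.g1 r hr Q hZ hs hd
    have hd' : ∀ p ∈ Q, ∀ q ∈ Q, ‖p - q‖ ≤ 64 * r :=
      fun p hp q hq => (hd p hp q hq).trans (by linarith)
    rcases hpoor r hr Q hQ hs hd' hZ with h1 | ⟨hr4, p0, hp0, hp0X, hp0x⟩
    · have : (Q.card : ℝ) ≤ 402 := by exact_mod_cast h1
      unfold Λ0; linarith
    by_cases hX : (↑Q : Set H) ⊆ X
    · exact h.g1 r hr Q hX hs hd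
    obtain ⟨q0, hq0, hq0X⟩ := Set.not_subset.1 hX
    have hq0o : ∀ p ∈ X, ⟪q0 - x, p - x⟫ = 0 := by
      rcases hlater Q hQ q0 hq0 hq0X with h' | h'
      · exact hRo q0 h'
      · rcases hcase with h1 | h1
        · exact hZo h1.1 q0 h'
        · exfalso
          have h2 := abs_le.1 (abs_inner_sub_le hu p0 q0)
          have h3 := hd p0 hp0 q0 hq0
          have h4 := (hZt q0 h').2
          have h5 := hXt p0 hp0X
          linarith [h2.2, h1.2.1]
    have h2 := h.g2 r hr ((32 * r) ^ 2) 0 le_rfl (Q.filter (· ∈ X))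
      (fun p hp => (Finset.mem_filter.1 hp).2) ⟨p0, Finset.mem_filter.2 ⟨hp0, hp0X⟩⟩
      (hs.mono (Finset.filter_subset _ _)) (by
        intro p hp
        rw [Finset.mem_filter] at hp
        refine ⟨sq_nonneg _, ?_⟩
        have h3 := pyth (hq0o p hp.2)
        have h4 : ‖p - q0‖ ^ 2 ≤ (32 * r) ^ 2 :=
          pow_le_pow_left₀ (norm_nonneg _) (hd p hp.1 q0 hq0) 2
        linarith [sq_nonneg ‖q0 - x‖])
    have h3 : ((Q.filter (· ∈ X)).card : ℝ) ≤ 402 + 1000000 * 1024 := by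
      have hr2 : 0 < r ^ 2 := by positivity
      apply le_of_mul_le_mul_right _ hr2
      nlinarith
    have h4 := (Finset.card_le_card (hsplit Q hQ)).trans (hline r hr Q hQ hs hd' hZ)
    have h5 := Finset.card_filter_add_card_filter_not (s := Q) (fun p => p ∈ X)
    have h6 : (Q.card : ℝ) = (Q.filter (· ∈ X)).card + (Q.filter (fun p => ¬ p ∈ X)).card := by
      exact_mod_cast h5.symm
    have h7 : ((Q.filter (fun p => ¬ p ∈ X)).card : ℝ) ≤ 385 := by exact_mod_cast h4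
    unfold Λ0; linarith
  · -- G2
    intro r hr R2 a2 hR Q hQ hne hs hd
    by_cases hZ : (↑Q : Set H) ⊆ Z
    · exact hP.g2 r hr R2 a2 hR Q hZ hne hs hd
    have hd' : ∀ p ∈ Q, ∀ q ∈ Q, ‖p - q‖ ≤ 64 * r :=
      fun p hp q hq => norm_sub_le_of_sq hr hR (hd p hp).2 (hd q hq).2
    rcases hpoor r hr Q hQ hs hd' hZ with h1 | ⟨hr4, p0, hp0, hp0X, hp0x⟩
    · exact G2_of_card_le hne hd h1
    have hp0z : ‖p0 - z‖ ≤ 32 * r := by
      apply abs_le_of_sq_le_sq' _ (by positivity) |>.2; linarith [(hd p0 hp0).2]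
    rcases hcase with ⟨hα, hab', -, hbb⟩ | h1
    swap
    · exfalso
      have h2 := abs_le.1 (abs_inner_sub_le hu p0 z)
      have h5 := hXt p0 hp0X
      linarith [h2.2, h1.2.1, hzt.2]
    have hzo := hZo hα z hP.mem
    have hpy : ∀ p ∈ X, ‖p - z‖ ^ 2 = ‖p - x‖ ^ 2 + ‖z - x‖ ^ 2 := fun p hp => pyth (hzo p hp)
    have hG : ∀ a3 : ℝ, (∀ p ∈ Q, p ∈ X → a3 ≤ ‖p - x‖ ^ 2) →
        ((Q.filter (· ∈ X)).card : ℝ) * r ^ 2 ≤
          402 * r ^ 2 + 1000000 * (R2 - ‖z - x‖ ^ 2) - 2 * a3 := by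
      intro a3 ha3
      apply h.g2 r hr (R2 - ‖z - x‖ ^ 2) a3 (by linarith [sq_nonneg ‖z - x‖]) (Q.filter (· ∈ X))
        (fun p hp => (Finset.mem_filter.1 hp).2) ⟨p0, Finset.mem_filter.2 ⟨hp0, hp0X⟩⟩
        (hs.mono (Finset.filter_subset _ _))
      intro p hp
      rw [Finset.mem_filter] at hp
      refine ⟨ha3 p hp.1 hp.2, ?_⟩
      linarith [hpy p hp.2, (hd p hp.1).2]
    have hG1 := hG (a2 - ‖z - x‖ ^ 2) (fun p hp hpX => by linarith [hpy p hpX, (hd p hp).1])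
    have h5 := Finset.card_filter_add_card_filter_not (s := Q) (fun p => p ∈ X)
    have h6 : (Q.card : ℝ) = (Q.filter (· ∈ X)).card + (Q.filter (fun p => ¬ p ∈ X)).card := by
      exact_mod_cast h5.symm
    have hσ := sq_nonneg ‖z - x‖
    have hr2 : 0 < r ^ 2 := by positivity
    have hαt : ⟪α, u⟫ = ⟪A, u⟫ + ℓ / 2 - b := by rw [hα, hrt]
    have hnear : ∀ q, q ∈ Ry ∨ q ∈ Z → ‖x - q‖ ≤ 2 * b := by
      intro q hq
      have h1 := (hlx q hq).2.2
      have h2 : ⟪x, u⟫ - ⟪q, u⟫ ≤ b := by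
        rcases hq with hq | hq
        · obtain ⟨s, rfl, hs0, hs⟩ := hRy q hq
          rw [hrt, hxt]
          rcases hs with hs | hs <;> linarith
        · linarith [(hZt q hq).1]
      linarith
    by_cases hsmall : 20 * b ≤ r
    · by_cases h0 : (Q.filter (fun p => ¬ p ∈ X)).card = 0
      · rw [h6, h0]; push_cast; linarith
      obtain ⟨q1, hq1⟩ := Finset.card_pos.1 (Nat.pos_of_ne_zero h0)
      have hc1 : (Q.filter (fun p => ¬ p ∈ X)).card ≤ 1 := by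
        rw [Finset.card_le_one]
        intro p hp q hq
        rw [Finset.mem_filter] at hp hq
        by_contra hne'
        have h1 := hs p hp.1 q hq.1 hne'
        have h2 := hnear p (hlater Q hQ p hp.1 hp.2)
        have h3 := hnear q (hlater Q hQ q hq.1 hq.2)
        have h4 := norm_sub_le_norm_sub_add_norm_sub p x q
        rw [norm_sub_rev p x] at h4
        linarith
      have hc1' : ((Q.filter (fun p => ¬ p ∈ X)).card : ℝ) ≤ 1 := by exact_mod_cast hc1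
      rw [Finset.mem_filter] at hq1
      have hq1n := hnear q1 (hlater Q hQ q1 hq1.1 hq1.2)
      have hG2 := hG ((9 / 10 * r) ^ 2) (by
        intro p hp hpX
        apply pow_le_pow_left₀ (by positivity)
        have h1 := hs p hp q1 hq1.1 (fun h' => hq1.2 (h' ▸ hpX))
        have h4 := norm_sub_le_norm_sub_add_norm_sub p x q1
        linarith)
      have ha2 : a2 ≤ (2 / 10 * r) ^ 2 := by
        refine (hd q1 hq1.1).1.trans (pow_le_pow_left₀ (norm_nonneg _) ?_ 2)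
        have h1 := hnear z (Or.inr hP.mem)
        have h4 := norm_sub_le_norm_sub_add_norm_sub q1 x z
        rw [norm_sub_rev q1 x] at h4
        linarith
      rw [h6]
      nlinarith
    · have hb2 : b ≤ 2 * a := by
        rcases hbb with hbb | hbb
        · exact hbb
        · exfalso
          have h1 := h.iso p0 hp0X hp0x
          have h2 : ‖p0 - x‖ ≤ 32 * r := by
            apply abs_le_of_sq_le_sq' _ (by positivity) |>.2
            linarith [(hd p0 hp0).2, hpy p0 hp0X]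
          linarith
      have hza : a ≤ ‖z - x‖ := by
        have h2 := abs_le.1 (abs_inner_sub_le hu z x)
        linarith [h2.1, hzt.2]
      have hσ2 : (r / 40) ^ 2 ≤ ‖z - x‖ ^ 2 :=
        pow_le_pow_left₀ (by positivity) (by linarith) 2
      have h4 := (Finset.card_le_card (hsplit Q hQ)).trans (hline r hr Q hQ hs hd' hZ)
      have h7 : ((Q.filter (fun p => ¬ p ∈ X)).card : ℝ) ≤ 385 := by exact_mod_cast h4
      rw [h6]
      nlinarith
  · linarith [hP.isoA, hαA.1]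
  · linarith [hP.isoB]
  · intro p hp hne
    have hout : ⟪p, u⟫ ≤ ⟪α, u⟫ ∨ ⟪β, u⟫ ≤ ⟪p, u⟫ → c' * m * (⟪B, u⟫ - ⟪A, u⟫) ≤ ‖p - z‖ := by
      intro h1
      have h2 := abs_le.1 (abs_inner_sub_le hu p z)
      rcases h1 with h1 | h1 <;> linarith [h2.1, h2.2, hP.isoA, hP.isoB]
    rcases hp with (hp | hp) | hp
    · apply hout; right; rw [hXt p hp, hβt]; linarith
    · exact hout (hAnt p (hRyAn p hp))
    · linarith [hP.iso p hp hne]

end Crest.Agent.R254
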